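import Vale.Agent.P267.H205.Fact
import Vale.Agent.P267.H781.Link

/-!
# P267, block G, package G-ORD (helper205): heights, acyclicity
-/

set_option linter.unusedVariables false
set_option linter.unusedSectionVars false

open scoped Manifold ContDiff ComplexConjugate Matrix Topology
open Set Filter
open Vale.Agent.P272.K (Cm)
open Vale.Agent.P267.FL Vale.Agent.P267.H158 Vale.Agent.P267.XT Vale.Agent.P267.H338
open Vale.Agent.P267.H757 Vale.Agent.P267.LineX Vale.Agent.P267.H781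

noncomputable section

namespace Vale.Agent.P267.H205

variable {X : Type} [TopologicalSpace X] [ChartedSpace C2 X] [IsManifold 𝓘(ℂ, C2) ω X] {n : ℕ}

section base

variable (O : BlockOut X n)

theorem continuous_sh' (k : ℤ) : Continuous (O.B.D.sh k) := O.B.D.continuous_sh k

omit [IsManifold 𝓘(ℂ, C2) ω X] in
theorem N_eq_zero_iff (b : Fin n × ℤ) (x : Cov O.B.hh) : O.N b x = 0 ↔ O.bα b x = 0 := by
  unfold BlockOut.N
  rw [sq_eq_zero_iff, norm_eq_zero]

theorem continuous_α (i : Fin n) : Continuous (O.α i) := (O.cone i).α_reg.continuous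

theorem continuous_N (b : Fin n × ℤ) : Continuous (O.N b) :=
  ((continuous_α O b.1).comp (continuous_sh' O (-b.2))).norm.pow 2

omit [IsManifold 𝓘(ℂ, C2) ω X] in
theorem N_nonneg (b : Fin n × ℤ) (x : Cov O.B.hh) : 0 ≤ O.N b x := sq_nonneg _

theorem dense_N (b : Fin n × ℤ) : Dense {x | O.N b x ≠ 0} := by
  have h : Dense {x | O.α b.1 x ≠ 0} := (O.cone b.1).α_dense
  have h1 : {x | O.N b x ≠ 0} = (O.B.D.γ ^ (-b.2)) ⁻¹' {x | O.α b.1 x ≠ 0} := by
    ext x
    exact not_congr (N_eq_zero_iff O b x)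
  rw [h1]
  exact h.preimage (O.B.D.γ ^ (-b.2)).isOpenMap

/-- the zero set of `α_b` lies below the height `k_b + R` -/
theorem exists_height : ∃ R : ℝ, 0 ≤ R ∧ ∀ b x, O.N b x = 0 → O.B.D.f x < b.2 + R := by
  obtain ⟨R, hR⟩ : ∃ R : ℝ, ∀ i, O.Rc i ≤ R := by
    obtain ⟨R, hR⟩ := (Set.finite_range O.Rc).bddAbove
    exact ⟨R, fun i => hR ⟨i, rfl⟩⟩
  refine ⟨max R 0, le_max_right _ _, fun b x hx => ?_⟩
  rw [N_eq_zero_iff] at hx
  by_contra hlt
  have h1 : O.Rc b.1 ≤ O.B.D.f (O.B.D.sh (-b.2) x) := by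
    rw [O.B.D.f_sh]
    have := hR b.1
    have := le_max_left R 0
    push_cast
    linarith [not_lt.1 hlt]
  exact (O.cone b.1).α_out _ h1 hx

end base

namespace Fact

variable {O : BlockOut X n} (F : Fact O)

include F

theorem zero_of_mem {b : Fin n × ℤ} {x : Cov O.B.hh} (hx : x ∈ (F.C b).image) : O.N b x = 0 := by
  rw [F.fact, (F.Nc_zero b x).2 hx, zero_mul]

theorem zero_of_I {b j : Fin n × ℤ} (hj : j ∈ F.I b) {x : Cov O.B.hh} (hx : O.N j x = 0) :
    O.N b x = 0 := by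
  rw [F.fact, Finset.prod_eq_zero hj hx, mul_zero]

theorem zero_of_desc {b j : Fin n × ℤ} (h : Desc F.I b j) {x : Cov O.B.hh} (hx : O.N j x = 0) :
    O.N b x = 0 := by
  induction h with
  | refl => exact hx
  | tail _ hbc ih => exact ih (F.zero_of_I hbc hx)

theorem zero_iff (b : Fin n × ℤ) (x : Cov O.B.hh) :
    O.N b x = 0 ↔ x ∈ (F.C b).image ∨ ∃ j ∈ F.I b, O.N j x = 0 := by
  constructor
  · intro h
    rw [F.fact] at h
    rcases mul_eq_zero.1 h with h | h
    · exact Or.inl ((F.Nc_zero b x).1 h)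
    · exact Or.inr (Finset.prod_eq_zero_iff.1 h)
  · rintro (h | ⟨j, hj, h⟩)
    · exact F.zero_of_mem h
    · exact F.zero_of_I hj h

/-- the curve `C b` lies near the height `k_b` -/
theorem exists_bound : ∃ A : ℝ, 0 ≤ A ∧ ∀ b, ∀ x ∈ (F.C b).image, |O.B.D.f x - b.2| ≤ A := by
  have hc : Continuous O.B.D.f := H706.continuous_f O.B.D
  have h1 : ∀ i : Fin n, ∃ A : ℝ, ∀ x ∈ (F.C (i, 0)).image, |O.B.D.f x| ≤ A := by
    intro i
    obtain ⟨A, hA⟩ := ((F.C (i, 0)).isCompact_image.image (continuous_abs.comp hc)).bddAbove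
    exact ⟨A, fun x hx => hA ⟨x, hx, rfl⟩⟩
  choose A hA using h1
  obtain ⟨B, hB⟩ : ∃ B : ℝ, ∀ i, A i ≤ B := by
    obtain ⟨B, hB⟩ := (Set.finite_range A).bddAbove
    exact ⟨B, fun i => hB ⟨i, rfl⟩⟩
  refine ⟨|B|, abs_nonneg _, fun b x hx => ?_⟩
  obtain ⟨i, k⟩ := b
  rw [F.C_shift] at hx
  obtain ⟨y, hy, rfl⟩ := hx
  rw [O.B.D.f_sh, add_sub_cancel_right]
  exact (hA i y hy).trans ((hB i).trans (le_abs_self B))

theorem exists_mem (b : Fin n × ℤ) : ∃ x, x ∈ (F.C b).image := ⟨_, (F.C b).mem_image_f₀ 0⟩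

/-- heights along descending paths -/
theorem exists_desc_le : ∃ R : ℝ, 0 ≤ R ∧ ∀ b j, Desc F.I b j → (j.2 : ℝ) ≤ b.2 + R := by
  obtain ⟨R, hR, h1⟩ := exists_height O
  obtain ⟨A, hA, h2⟩ := F.exists_bound
  refine ⟨R + A, by positivity, fun b j h => ?_⟩
  obtain ⟨x, hx⟩ := F.exists_mem j
  have h3 := h1 b x (F.zero_of_desc h (F.zero_of_mem hx))
  have h4 := abs_le.1 (h2 j x hx)
  linarith

theorem exists_factor {b j : Fin n × ℤ} (h : Desc F.I b j) :
    ∃ G : Cov O.B.hh → ℝ, Continuous G ∧ ∀ x, O.N b x = G x * O.N j x := by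
  classical
  induction h with
  | refl => exact ⟨fun _ => 1, continuous_const, fun x => (one_mul _).symm⟩
  | @tail c d _ hcd ih =>
    obtain ⟨G, hG, hGe⟩ := ih
    have hcd' : d ∈ F.I c := hcd
    refine ⟨fun x => G x * (F.Nc c x * ∏ i ∈ (F.I c).erase d, O.N i x),
      hG.mul ((F.Nc_norm c).continuous.mul (continuous_finsetProd _ fun i _ => continuous_N O i)),
      fun x => ?_⟩
    rw [hGe, F.fact c, ← Finset.mul_prod_erase _ _ hcd']
    ring

/-- no cycles -/
theorem acyclic {b j : Fin n × ℤ} (hj : j ∈ F.I b) : ¬ Desc F.I j b := by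
  classical
  intro h
  obtain ⟨G, hG, hGe⟩ := F.exists_factor h
  set H : Cov O.B.hh → ℝ := fun x => F.Nc b x * (∏ i ∈ (F.I b).erase j, O.N i x) * G x with hH
  have hHc : Continuous H := ((F.Nc_norm b).continuous.mul
    (continuous_finsetProd _ fun i _ => continuous_N O i)).mul hG
  have h1 : ∀ x, O.N b x = H x * O.N b x := by
    intro x
    conv_lhs => rw [F.fact b, ← Finset.mul_prod_erase _ _ hj, hGe]
    rw [hH]
    ring
  have h2 : H = fun _ => 1 := by
    refine Continuous.ext_on (dense_N O b) hHc continuous_const fun x hx => ?_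
    have h3 : O.N b x ≠ 0 := hx
    exact mul_right_cancel₀ h3 (by rw [← h1, one_mul])
  obtain ⟨x, hx⟩ := F.exists_mem b
  have h3 := congrFun h2 x
  rw [hH] at h3
  simp only [(F.Nc_zero b x).2 hx, zero_mul] at h3
  exact zero_ne_one h3

/-- `I b` is not empty -/
theorem nonempty_I (b : Fin n × ℤ) : (F.I b).Nonempty := by
  rw [Finset.nonempty_iff_ne_empty]
  intro h0
  obtain ⟨K, hK, hb⟩ := F.Nc_in b
  obtain ⟨C, hC⟩ := (O.cone b.1).α_in
  have hd : 0 < O.d₀ / 2 := (O.cone b.1).d_pos.trans (O.cone b.1).d_lt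
  obtain ⟨x₀, -⟩ := F.exists_mem b
  -- a sequence of points going to the inner end
  have key : ∀ m : ℕ, (m : ℝ) ≥ K + |O.B.D.f x₀| + |(b.2 : ℝ)| →
      K⁻¹ ≤ (C * Real.exp (O.d₀ / 2 * (O.B.D.f x₀ - m - b.2))) ^ 2 := by
    intro m hm
    set y := O.B.D.sh (-(m : ℤ)) x₀ with hy
    have hfy : O.B.D.f y = O.B.D.f x₀ - m := by
      rw [hy, O.B.D.f_sh]; push_cast; ring
    have h1 : O.B.D.f y ≤ -K := by
      rw [hfy]
      have := le_abs_self (O.B.D.f x₀)
      have := abs_nonneg (b.2 : ℝ)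
      linarith
    have h2 := (hb y h1).1
    have h3 : O.N b y = F.Nc b y := by rw [F.fact, h0, Finset.prod_empty, mul_one]
    rw [← h3] at h2
    have h4 : O.B.D.f (O.B.D.sh (-b.2) y) = O.B.D.f x₀ - m - b.2 := by
      rw [O.B.D.f_sh, hfy]; push_cast; ring
    have h5 : O.B.D.f (O.B.D.sh (-b.2) y) ≤ 0 := by
      rw [h4]
      have := le_abs_self (O.B.D.f x₀)
      have := neg_abs_le (b.2 : ℝ)
      linarith
    have h6 := hC _ h5
    rw [h4] at h6
    refine h2.trans ?_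
    change ‖O.α b.1 (O.B.D.sh (-b.2) y)‖ ^ 2 ≤ _
    exact pow_le_pow_left₀ (norm_nonneg _) h6 2
  have hlim : Tendsto (fun m : ℕ => (C * Real.exp (O.d₀ / 2 * (O.B.D.f x₀ - m - b.2))) ^ 2) atTop
      (𝓝 0) := by
    have h1 : Tendsto (fun m : ℕ => O.d₀ / 2 * (O.B.D.f x₀ - m - b.2)) atTop atBot := by
      apply Tendsto.const_mul_atBot hd
      have h2 : Tendsto (fun m : ℕ => (m : ℝ)) atTop atTop := tendsto_natCast_atTop_atTop
      have h3 : Tendsto (fun m : ℕ => -(m : ℝ)) atTop atBot := tendsto_neg_atTop_atBot.comp h2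
      have h4 : Tendsto (fun m : ℕ => (O.B.D.f x₀ - b.2) + -(m : ℝ)) atTop atBot :=
        tendsto_atBot_add_const_left _ _ h3
      refine h4.congr fun m => by ring
    have h2 := (Real.tendsto_exp_atBot.comp h1).const_mul C
    have h3 := h2.pow 2
    simpa using h3
  have h7 : K⁻¹ ≤ 0 := by
    refine ge_of_tendsto hlim ?_
    obtain ⟨m₀, hm₀⟩ := exists_nat_ge (K + |O.B.D.f x₀| + |(b.2 : ℝ)|)
    filter_upwards [eventually_ge_atTop m₀] with m hm
    exact key m (hm₀.trans (by exact_mod_cast hm))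
  have : 0 < K⁻¹ := inv_pos.2 hK
  linarith

end Fact

end Vale.Agent.P267.H205
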