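import Vale.Agent.P267.H205.P2c
import Vale.Agent.P267.H823.PL6
import Vale.Agent.P267.H399.LBCurv

/-!
# P267, block G, package G-P1 (helper205): degree and curvature on a curve `ℙ¹ → M`

`integral_pbC_curv`: the curvature form of `L` integrates over the curve to `π * degOn L ha φ`.
-/

open Filter Topology MeasureTheory Set Metric
open scoped ContDiff Real ComplexConjugate Matrix Manifold

namespace Vale.Agent.P267.H205.P1

open FL

noncomputable section

variable {M : Type*} [TopologicalSpace M] [ChartedSpace C2 M]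

theorem dd_comp_curve {V : Type*} [NormedAddCommGroup V] [NormedSpace ℂ V] {G : C2 → V}
    {F : ℂ → C2} {z : ℂ} (hG : DifferentiableAt ℝ G (F z)) (hF : DifferentiableAt ℂ F z) :
    dd (fun z => G (F z)) z = ∑ i, deriv F z i • dz i G (F z) := by
  unfold dd
  have h : fderiv ℝ (fun z => G (F z)) z =
      (fderiv ℝ G (F z)).comp ((fderiv ℂ F z).restrictScalars ℝ) :=
    (hG.hasFDerivAt.comp z (hF.hasFDerivAt.restrictScalars ℝ)).fderiv
  rw [h]
  simp only [ContinuousLinearMap.comp_apply, ContinuousLinearMap.coe_restrictScalars']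
  rw [fderiv_eq_smul_deriv, fderiv_eq_smul_deriv, one_smul]
  set w := deriv F z
  have e1 := fderiv_eq_wirt (f := G) (z := F z) w
  have e2 := fderiv_eq_wirt (f := G) (z := F z) (Complex.I • w)
  rw [e1, e2]
  simp only [Fin.sum_univ_two, Pi.smul_apply, smul_eq_mul, map_mul, Complex.conj_I]
  have hI : Complex.I * Complex.I = -1 := Complex.I_mul_I
  simp only [smul_add, smul_smul, smul_sub]
  match_scalars
  · linear_combination (-(1 / 2) * w 0) * hI
  · linear_combination (1 / 2 * (starRingEnd ℂ) (w 0)) * hI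
  · linear_combination (-(1 / 2) * w 1) * hI
  · linear_combination (1 / 2 * (starRingEnd ℂ) (w 1)) * hI

variable [IsManifold 𝓘(ℂ, C2) ω M] {ι : Type} [Fintype ι] [DecidableEq ι]

theorem pbC_curv (L : LB M ι) {f : ℂ → M} {t : ℂ} (hf : MDifferentiable 𝓘(ℂ) 𝓘(ℂ, C2) f) :
    H823.PL.pbC f L.curv t = crvC (fun z => L.P (f z)) t := by
  set e := chartAt C2 (f t) with hed
  have he : e ∈ atlas C2 M := chart_mem_atlas C2 _
  have hz : f t ∈ e.source := mem_chart_source C2 _
  have hU : f ⁻¹' e.source ∈ 𝓝 t := (hf t).continuousAt.preimage_mem_nhds (e.open_source.mem_nhds hz)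
  have hF := curve_diff (hf t) he hz
  set v := deriv (fun s => e (f s)) t with hv
  have hP : ∀ i j, (fun y => L.P (f y) i j) =ᶠ[𝓝 t] fun y => L.Pc e (e (f y)) i j := by
    intro i j
    filter_upwards [hU] with y hy
    rw [LB.Pc, e.left_inv hy]
  have hG : ∀ i j, DifferentiableAt ℝ (fun z => L.Pc e z i j) (e (f t)) := fun i j =>
    (L.Pc_contDiffAt he (e.map_source hz) i j).differentiableAt (by simp)
  have e1 : mdd (fun z => L.P (f z)) t = mT (v 0 • Tz 0 + v 1 • Tz 1) (L.Pc e) (e (f t)) := by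
    ext i j
    simp only [mdd, mT, Matrix.of_apply]
    rw [dd_congr (hP i j), dd_comp_curve (G := fun z => L.Pc e z i j) (hG i j) hF,
      Fin.sum_univ_two]
    simp only [dT, LinearMap.add_apply, LinearMap.smul_apply, Tz_fderiv, smul_eq_mul]
    rfl
  have e2 : mdb (fun z => L.P (f z)) t =
      mT (conj (v 0) • Tb 0 + conj (v 1) • Tb 1) (L.Pc e) (e (f t)) := by
    ext i j
    simp only [mdb, mT, Matrix.of_apply]
    rw [db_congr (hP i j), db_comp_curve (G := fun z => L.Pc e z i j) (hG i j) hF,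
      Fin.sum_univ_two]
    simp only [dT, LinearMap.add_apply, LinearMap.smul_apply, Tb_fderiv, smul_eq_mul]
    rfl
  have e3 : L.P (f t) = L.Pc e (e (f t)) := by rw [LB.Pc, e.left_inv hz]
  have e4 : crvC (fun z => L.P (f z)) t =
      crv (L.Pc e) (v 0 • Tz 0 + v 1 • Tz 1) (conj (v 0) • Tb 0 + conj (v 1) • Tb 1)
        (e (f t)) := by
    rw [crvC, crv, e1, e2, e3]
  rw [e4]
  simp only [crv_add_left, crv_add_right, crv_smul_left, crv_smul_right]
  have e5 : ∀ i j, L.curv.f11 (f t) i j = crv (L.Pc e) (Tz i) (Tb j) (e (f t)) := fun i j =>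
    L.F11_crv (f t) i j
  unfold H823.PL.pbC
  simp only [e5, Fin.sum_univ_two]
  change _ * (v 0 * conj (v 0)) + _ * (v 0 * conj (v 1)) +
    (_ * (v 1 * conj (v 0)) + _ * (v 1 * conj (v 1))) = _
  ring

/-- the curvature of `L` integrates over the curve to `π` times the degree -/
theorem integral_pbC_curv (L : LB M ι) {a : M → Fin 2 → ℂ} (ha : Reg1 ∞ 0 a) (φ : P1Map M) :
    Integrable (H823.PL.pbC φ.f₀ L.curv) ∧
      ∫ t, H823.PL.pbC φ.f₀ L.curv t = π * degOn L ha φ := by
  have h1 : H823.PL.pbC φ.f₀ L.curv = crvC fun z => L.P (φ.f₀ z) := by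
    funext t
    exact pbC_curv L φ.holo₀
  rw [h1]
  exact integral_crvC (pull L ha φ) (fun z => rfl) (fun z => L.herm _)
    fun i j => contDiff_comp_curve φ.holo₀ (L.smooth i j)

end

end Vale.Agent.P267.H205.P1
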