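import Vale.Agent.P267.H205.P1j
import Vale.Agent.P267.H205.Ord1
import Vale.Agent.P267.H995.Deg

/-!
# P267, block G, package G-ORD (helper205): deep curves lie in every divisor
-/

set_option linter.unusedVariables false
set_option linter.unusedSectionVars false

open scoped Manifold ContDiff ComplexConjugate Matrix Topology
open Set Filter
open Vale.Agent.P272.K (Cm)
open Vale.Agent.P267.FL Vale.Agent.P267.H158 Vale.Agent.P267.XT Vale.Agent.P267.H338
open Vale.Agent.P267.H757 Vale.Agent.P267.LineX Vale.Agent.P267.H781 Vale.Agent.P267.H205.P1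

noncomputable section

namespace Vale.Agent.P267.H205

variable {X : Type} [TopologicalSpace X] [T2Space X] [ChartedSpace C2 X]
  [IsManifold 𝓘(ℂ, C2) ω X] {n : ℕ}

/-- oscillation of `α_c` on a fixed line, for `c` far outside -/
theorem osc_fixed (O : BlockOut X n) (φ : P1Map (Cov O.B.hh)) (p : Fin n) (A : ℝ)
    (hA : ∀ x ∈ φ.image, |O.B.D.f x| ≤ A) :
    ∃ (C₀ m₀ : ℝ), 0 ≤ C₀ ∧ ∀ m : ℤ, m₀ ≤ m → ∀ x ∈ φ.image, ∀ y ∈ φ.image,
      ‖O.bα (p, m) x‖ ≤ Real.exp (C₀ * Real.exp (-(O.d₀ / 2) * m)) * ‖O.bα (p, m) y‖ := by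
  obtain ⟨C, hC⟩ := (O.cone p).a_in
  have hd : 0 < O.d₀ / 2 := (O.cone p).d_pos.trans (O.cone p).d_lt
  obtain ⟨M₀, hM₀, hb₀⟩ := pulla_le O.B.D.herm φ.holo₀
    (isCompact_closedBall (0 : ℂ) (3 / 2))
  obtain ⟨M₁, hM₁, hb₁⟩ := pulla_le O.B.D.herm φ.holo₁
    (isCompact_closedBall (0 : ℂ) (3 / 2))
  set C' := |C| * Real.exp (O.d₀ / 2 * A) with hC'
  have hC'0 : 0 ≤ C' := by positivity
  have hcau := cauC_nonneg (3 / 2)
  refine ⟨2 * (2 * cauC (3 / 2) * ((M₀ + M₁) * C')), max A (A + O.Rc p), by positivity,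
    fun m hm x hx y hy => ?_⟩
  have hm1 : A ≤ m := (le_max_left _ _).trans hm
  have hm2 : A + O.Rc p ≤ m := (le_max_right _ _).trans hm
  set ε := (M₀ + M₁) * C' * Real.exp (-(O.d₀ / 2) * m) with hε
  have hε0 : 0 ≤ ε := by positivity
  have hfm : ∀ x ∈ φ.image, O.B.D.f (O.B.D.sh (-m) x) = O.B.D.f x - m := fun x _ => by
    rw [O.B.D.f_sh]; push_cast; ring
  -- the projector is constant on the curve
  have hP : ∀ x ∈ φ.image, (O.bL (p, m)).P x = Matrix.single (O.i₀ p) (O.i₀ p) 1 := by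
    intro x hx
    change (O.E p).L.P (O.B.D.sh (-m) x) = _
    apply (O.cone p).triv
    rw [hfm x hx]
    have h1 := abs_le.1 (hA x hx)
    rw [abs_of_nonpos (by linarith)]
    linarith
  have ha : ∀ x ∈ φ.image, n1 O.B.D.h 0 (O.ba (p, m)) x ≤ C' * Real.exp (-(O.d₀ / 2) * m) := by
    intro x hx
    have h1 := abs_le.1 (hA x hx)
    have h2 : n1 O.B.D.h 0 (O.ba (p, m)) x = n1 O.B.D.h 0 (O.a p) (O.B.D.sh (-m) x) :=
      O.B.D.n1_comp_sh 0 (-m) (O.a p) x
    rw [h2]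
    have h3 := hC (O.B.D.sh (-m) x) (by rw [hfm x hx]; linarith)
    refine h3.trans ?_
    rw [hfm x hx, hC', mul_assoc, ← Real.exp_add]
    refine mul_le_mul (le_abs_self C) (Real.exp_le_exp.2 ?_) (Real.exp_pos _).le (abs_nonneg _)
    nlinarith
  have m₀ : ∀ z, φ.f₀ z ∈ φ.image := fun z => Or.inl ⟨z, rfl⟩
  have m₁ : ∀ z, φ.f₁ z ∈ φ.image := fun z => by
    rcases eq_or_ne z 0 with rfl | hz
    · exact Or.inr rfl
    · have := φ.glue z⁻¹ (inv_ne_zero hz)
      rw [inv_inv] at this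
      rw [← this]
      exact m₀ _
  have hsec := holSec_pull (O.bL (p, m)) (H995.reg_ba O (p, m)) φ (H995.reg_b O (p, m))
    (H995.sec_b O (p, m)) (H995.db_b O (p, m))
  obtain ⟨v, u₀, u₁, h₀, h₁, hu⟩ := hsec.norm_le
    (T := LB.actL (Matrix.single (O.i₀ p) (O.i₀ p) (1 : ℂ)))
    (fun z => by
      change LB.actL ((O.bL (p, m)).P (φ.f₀ z)) = _
      rw [hP _ (m₀ z)])
    (fun z => by
      change LB.actL ((O.bL (p, m)).P (φ.f₁ z)) = _
      rw [hP _ (m₁ z)]) (ε := ε) hε0 (fun z hz => by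
      have hz' : z ∈ Metric.closedBall (0 : ℂ) (3 / 2) := by simpa using hz
      have hE := Real.exp_pos (-(O.d₀ / 2) * m)
      constructor
      · refine (hb₀ z hz' (O.ba (p, m))).trans ?_
        refine (mul_le_mul_of_nonneg_left (ha _ (m₀ z)) hM₀).trans ?_
        rw [hε]
        have : 0 ≤ M₁ * C' * Real.exp (-(O.d₀ / 2) * m) := by positivity
        nlinarith
      · refine (hb₁ z hz' (O.ba (p, m))).trans ?_
        refine (mul_le_mul_of_nonneg_left (ha _ (m₁ z)) hM₁).trans ?_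
        rw [hε]
        have : 0 ≤ M₀ * C' * Real.exp (-(O.d₀ / 2) * m) := by positivity
        nlinarith)
  -- every value is `exp u • v` with `|u| ≤ c ε`
  have hval : ∀ x ∈ φ.image, ∃ u : ℂ, O.bα (p, m) x = Complex.exp u • v ∧
      ‖u‖ ≤ 2 * cauC (3 / 2) * ε := by
    rintro x (⟨z, rfl⟩ | rfl)
    · exact ⟨u₀ z, h₀ z, (hu z).1⟩
    · exact ⟨u₁ 0, h₁ 0, (hu 0).2⟩
  obtain ⟨u, hu1, hu2⟩ := hval x hx
  obtain ⟨w, hw1, hw2⟩ := hval y hy
  have h3 : O.bα (p, m) x = Complex.exp (u - w) • O.bα (p, m) y := by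
    rw [hu1, hw1, smul_smul, ← Complex.exp_add, sub_add_cancel]
  rw [h3, norm_smul, Complex.norm_exp]
  refine mul_le_mul_of_nonneg_right (Real.exp_le_exp.2 ?_) (norm_nonneg _)
  refine (Complex.re_le_norm _).trans ((norm_sub_le _ _).trans ((add_le_add hu2 hw2).trans
    (le_of_eq ?_)))
  rw [hε]
  ring

/-! ### summability -/

theorem summable_exp_abs {δ : ℝ} (hδ : 0 < δ) : Summable fun k : ℤ => Real.exp (-(δ * |(k : ℝ)|)) := by
  have h1 : Summable fun k : ℕ => Real.exp (-(δ * (k : ℝ))) := by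
    have h2 : (fun k : ℕ => Real.exp (-(δ * (k : ℝ)))) = fun k : ℕ => Real.exp (-δ) ^ k := by
      funext k
      rw [← Real.exp_nat_mul]
      congr 1
      ring
    rw [h2]
    exact summable_geometric_of_lt_one (Real.exp_pos _).le (Real.exp_lt_one_iff.2 (by linarith))
  refine Summable.of_nat_of_neg (h1.congr fun k => by simp) (h1.congr fun k => by simp)

theorem summable_W (n : ℕ) {δ : ℝ} (hδ : 0 < δ) :
    Summable fun c : Fin n × ℤ => Real.exp (-(δ * |(c.2 : ℝ)|)) := by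
  have h1 : Summable fun _ : Fin n => (1 : ℝ) := Summable.of_finite
  have h2 := Summable.mul_of_nonneg h1 (summable_exp_abs hδ) (fun _ => zero_le_one)
    (fun _ => (Real.exp_pos _).le)
  exact h2.congr fun c => one_mul _

theorem exp_le_W {δ : ℝ} (hδ : 0 < δ) {k K : ℝ} (hk : k ≤ K) :
    Real.exp (δ * k) ≤ Real.exp (2 * δ * |K|) * Real.exp (-(δ * |k|)) := by
  rw [← Real.exp_add]
  apply Real.exp_le_exp.2
  rcases le_or_gt 0 k with h | h
  · have h1 : |k| ≤ |K| := by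
      rw [abs_of_nonneg h]
      exact hk.trans (le_abs_self K)
    have h2 := mul_le_mul_of_nonneg_left h1 hδ.le
    rw [abs_of_nonneg h] at h2 ⊢
    linarith
  · have h1 := mul_nonneg hδ.le (abs_nonneg K)
    rw [abs_of_neg h]
    linarith

omit [IsManifold 𝓘(ℂ, C2) ω X] in
theorem bα_sh (O : BlockOut X n) (b : Fin n × ℤ) (k : ℤ) (x : Cov O.B.hh) :
    O.bα b (O.B.D.sh k x) = O.bα (b.1, b.2 - k) x := by
  unfold BlockOut.bα
  simp only
  rw [← O.B.D.sh_add]
  congr 2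
  ring

namespace Fact

variable {O : BlockOut X n} (F : Fact O)

include F

/-- a descending path is injective and its heights are bounded above -/
theorem path_desc {g : ℕ → Fin n × ℤ} (hg : ∀ j, g (j + 1) ∈ F.I (g j)) {i j : ℕ} (hij : i ≤ j) :
    Desc F.I (g i) (g j) := by
  induction hij with
  | refl => exact Desc.refl _
  | step _ ih => exact ih.trans (Desc.of_mem (hg _))

theorem path_injective {g : ℕ → Fin n × ℤ} (hg : ∀ j, g (j + 1) ∈ F.I (g j)) :
    Function.Injective g := by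
  have key : ∀ i j, i < j → g i ≠ g j := by
    intro i j hij h
    have h1 := F.path_desc hg (show i + 1 ≤ j from hij)
    rw [← h] at h1
    exact F.acyclic (hg i) h1
  intro i j h
  rcases lt_trichotomy i j with h1 | h1 | h1
  · exact absurd h (key i j h1)
  · exact h1
  · exact absurd h.symm (key j i h1)

theorem path_W {g : ℕ → Fin n × ℤ} (hg : ∀ j, g (j + 1) ∈ F.I (g j)) {δ : ℝ} (hδ : 0 < δ) :
    Tendsto (fun j => Real.exp (-(δ * |((g j).2 : ℝ)|))) atTop (𝓝 0) :=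
  ((summable_W n hδ).comp_injective (F.path_injective hg)).tendsto_atTop_zero

/-- heights along a descending path tend to `-∞` -/
theorem path_atBot {g : ℕ → Fin n × ℤ} (hg : ∀ j, g (j + 1) ∈ F.I (g j)) (K : ℝ) :
    ∃ j, ((g j).2 : ℝ) < K := by
  obtain ⟨R, hR, h1⟩ := F.exists_desc_le
  have h2 := F.path_W hg one_pos
  have h3 : ∀ᶠ j in atTop, Real.exp (-(1 * |((g j).2 : ℝ)|)) <
      Real.exp (-(|((g 0).2 : ℝ) + R| + |K|)) := h2.eventually (gt_mem_nhds (Real.exp_pos _))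
  obtain ⟨j, hj⟩ := h3.exists
  refine ⟨j, ?_⟩
  have h4 := Real.exp_lt_exp.1 hj
  have h5 := h1 _ _ (F.path_desc hg (Nat.zero_le j))
  by_contra hlt
  have h6 : K ≤ (g j).2 := not_lt.1 hlt
  have h7 : |((g j).2 : ℝ)| ≤ |((g 0).2 : ℝ) + R| + |K| := by
    rw [abs_le]
    constructor
    · have := neg_abs_le K
      have := abs_nonneg (((g 0).2 : ℝ) + R)
      linarith
    · have := le_abs_self (((g 0).2 : ℝ) + R)
      have := abs_nonneg K
      linarith
  linarith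

/-- the zero set of `α_b` is the union of the curves below `b` -/
theorem exists_mem_of_zero {b : Fin n × ℤ} {x : Cov O.B.hh} (hx : O.N b x = 0) :
    ∃ i, Desc F.I b i ∧ x ∈ (F.C i).image := by
  by_contra hcon
  push Not at hcon
  have hstep : ∀ c : {c : Fin n × ℤ // Desc F.I b c ∧ O.N c x = 0},
      ∃ d : {c : Fin n × ℤ // Desc F.I b c ∧ O.N c x = 0}, d.1 ∈ F.I c.1 := by
    rintro ⟨c, hc1, hc2⟩
    rcases (F.zero_iff c x).1 hc2 with h | ⟨j, hj, h⟩
    · exact absurd h (hcon c hc1)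
    · exact ⟨⟨j, hc1.trans (Desc.of_mem hj), h⟩, hj⟩
  choose nxt hnxt using hstep
  set g : ℕ → {c : Fin n × ℤ // Desc F.I b c ∧ O.N c x = 0} :=
    fun j => nxt^[j] ⟨b, Desc.refl b, hx⟩ with hg
  have hg1 : ∀ j, (g (j + 1)).1 ∈ F.I (g j).1 := by
    intro j
    simp only [hg, Function.iterate_succ_apply']
    exact hnxt _
  obtain ⟨R, hR, h1⟩ := exists_height O
  obtain ⟨j, hj⟩ := F.path_atBot (g := fun j => (g j).1) hg1 (O.B.D.f x - R)
  have h2 := h1 _ _ (g j).2.2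
  linarith

/-- oscillation of `α_b` on all curves far below `b` -/
theorem exists_osc : ∃ C₀ m₀ : ℝ, 0 ≤ C₀ ∧ ∀ b g : Fin n × ℤ, m₀ ≤ (b.2 : ℝ) - g.2 →
    ∀ x ∈ (F.C g).image, ∀ y ∈ (F.C g).image,
      ‖O.bα b x‖ ≤ Real.exp (C₀ * Real.exp (-(O.d₀ / 2) * ((b.2 : ℝ) - g.2))) * ‖O.bα b y‖ := by
  obtain ⟨A, hA, hAb⟩ := F.exists_bound
  choose C m hC hosc using fun q : Fin n × Fin n => osc_fixed O (F.C (q.2, 0)).toP1Map q.1 A
    (fun x hx => by simpa using hAb (q.2, 0) x hx)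
  obtain ⟨C', hC'⟩ := (Set.finite_range C).bddAbove
  obtain ⟨m', hm'⟩ := (Set.finite_range m).bddAbove
  refine ⟨max C' 0, m', le_max_right _ _, ?_⟩
  rintro ⟨p, q⟩ ⟨i, k⟩ hm x hx y hy
  simp only at hm ⊢
  rw [F.C_shift] at hx hy
  obtain ⟨x', hx', rfl⟩ := hx
  obtain ⟨y', hy', rfl⟩ := hy
  rw [bα_sh, bα_sh]
  simp only
  have h1 := hosc (p, i) (q - k) (by
    have : m (p, i) ≤ m' := hm' ⟨_, rfl⟩
    push_cast
    linarith) x' hx' y' hy'
  refine h1.trans (mul_le_mul_of_nonneg_right (Real.exp_le_exp.2 ?_) (norm_nonneg _))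
  push_cast
  exact mul_le_mul_of_nonneg_right ((hC' ⟨_, rfl⟩).trans (le_max_left _ _)) (Real.exp_pos _).le

/-- **Curves far below `b` lie in the divisor of `α_b`.** -/
theorem exists_deep (hmeet : ∀ b, ∃ j ∈ F.I b, ((F.C b).image ∩ (F.C j).image).Nonempty) :
    ∃ K : ℝ, ∀ b g : Fin n × ℤ, K ≤ (b.2 : ℝ) - g.2 → ∀ x ∈ (F.C g).image, O.N b x = 0 := by
  obtain ⟨C₀, m₀, hC₀, hosc⟩ := F.exists_osc
  obtain ⟨A, hA, hAb⟩ := F.exists_bound
  obtain ⟨R, hR, hdesc⟩ := F.exists_desc_le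
  choose nxt hn1 hn2 using hmeet
  refine ⟨max (m₀ + R) (R + A), fun b g₀ hK x hx => ?_⟩
  have hK1 : m₀ + R ≤ (b.2 : ℝ) - g₀.2 := (le_max_left _ _).trans hK
  have hK2 : R + A ≤ (b.2 : ℝ) - g₀.2 := (le_max_right _ _).trans hK
  set δ := O.d₀ / 2 with hδd
  have hδ : 0 < δ := (O.cone b.1).d_pos.trans (O.cone b.1).d_lt
  set g : ℕ → Fin n × ℤ := fun j => nxt^[j] g₀ with hg
  have hg0 : g 0 = g₀ := rfl
  have hgs : ∀ j, g (j + 1) = nxt (g j) := fun j => Function.iterate_succ_apply' nxt j g₀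
  have hg1 : ∀ j, g (j + 1) ∈ F.I (g j) := fun j => by rw [hgs]; exact hn1 _
  have hh : ∀ j, ((g j).2 : ℝ) ≤ g₀.2 + R := fun j =>
    hdesc _ _ (F.path_desc hg1 (Nat.zero_le j))
  set K₀ : ℝ := (g₀.2 : ℝ) + R with hK₀
  set W : Fin n × ℤ → ℝ := fun c => Real.exp (-(δ * |(c.2 : ℝ)|)) with hW
  have hWs : Summable W := summable_W n hδ
  have hW0 : ∀ c, 0 ≤ W c := fun c => (Real.exp_pos _).le
  set C₁ : ℝ := Real.exp (-δ * b.2) * Real.exp (2 * δ * |K₀|) with hC₁
  have hC₁0 : 0 ≤ C₁ := by positivity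
  have hD : ∀ j, Real.exp (-δ * ((b.2 : ℝ) - (g j).2)) ≤ C₁ * W (g j) := by
    intro j
    have h1 : Real.exp (-δ * ((b.2 : ℝ) - (g j).2)) =
        Real.exp (-δ * b.2) * Real.exp (δ * (g j).2) := by
      rw [← Real.exp_add]
      congr 1
      ring
    rw [h1, hC₁, mul_assoc]
    exact mul_le_mul_of_nonneg_left (exp_le_W hδ (hh j)) (Real.exp_pos _).le
  -- comparison along the path
  have hind : ∀ J, ∀ y ∈ (F.C (g J)).image, ‖O.bα b x‖ ≤
      Real.exp (C₀ * ∑ j ∈ Finset.range (J + 1), Real.exp (-δ * ((b.2 : ℝ) - (g j).2))) *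
        ‖O.bα b y‖ := by
    intro J
    induction J with
    | zero =>
      intro y hy
      rw [zero_add, Finset.sum_range_one, hg0]
      exact hosc b g₀ (by linarith) x hx y hy
    | succ J ih =>
      intro y hy
      obtain ⟨p, hp1, hp2⟩ := hn2 (g J)
      rw [← hgs] at hp2
      have h1 := ih p hp1
      have h2 := hosc b (g (J + 1)) (by linarith [hh (J + 1)]) p hp2 y hy
      refine h1.trans ((mul_le_mul_of_nonneg_left h2 (Real.exp_pos _).le).trans (le_of_eq ?_))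
      rw [← mul_assoc, ← Real.exp_add, Finset.sum_range_succ _ (J + 1), mul_add]
  have hsum : ∀ J, ∑ j ∈ Finset.range (J + 1), Real.exp (-δ * ((b.2 : ℝ) - (g j).2)) ≤
      C₁ * ∑' c, W c := by
    intro J
    refine (Finset.sum_le_sum fun j _ => hD j).trans ?_
    rw [← Finset.mul_sum]
    refine mul_le_mul_of_nonneg_left ?_ hC₁0
    rw [← Finset.sum_image (s := Finset.range (J + 1)) (g := g) (f := W)
      (fun i _ j _ h => F.path_injective hg1 h)]
    exact hWs.sum_le_tsum _ fun c _ => hW0 c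
  obtain ⟨C, hC⟩ := (O.cone b.1).α_in
  set S := Real.exp (C₀ * (C₁ * ∑' c, W c)) with hS
  have hbd : ∀ J, ‖O.bα b x‖ ≤ S * (|C| * (Real.exp (δ * A) * C₁ * W (g J))) := by
    intro J
    obtain ⟨y, hy⟩ := F.exists_mem (g J)
    have h1 := hind J y hy
    have h2 : ‖O.bα b y‖ ≤ |C| * (Real.exp (δ * A) * C₁ * W (g J)) := by
      have hf : O.B.D.f (O.B.D.sh (-b.2) y) = O.B.D.f y - b.2 := by
        rw [O.B.D.f_sh]; push_cast; ring
      have h3 := (abs_le.1 (hAb (g J) y hy)).2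
      have h4 := hC (O.B.D.sh (-b.2) y) (by
        rw [hf]
        have := hh J
        linarith)
      refine h4.trans (mul_le_mul (le_abs_self C) ?_ (Real.exp_pos _).le (abs_nonneg _))
      rw [hf, mul_assoc]
      have h5 : Real.exp (O.d₀ / 2 * (O.B.D.f y - b.2)) ≤
          Real.exp (δ * A) * Real.exp (-δ * ((b.2 : ℝ) - (g J).2)) := by
        rw [← Real.exp_add]
        apply Real.exp_le_exp.2
        have h6 := mul_le_mul_of_nonneg_left h3 hδ.le
        rw [← hδd]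
        linarith
      exact h5.trans (mul_le_mul_of_nonneg_left (hD J) (Real.exp_pos _).le)
    refine h1.trans (mul_le_mul ?_ h2 (norm_nonneg _) (Real.exp_pos _).le)
    exact Real.exp_le_exp.2 (mul_le_mul_of_nonneg_left (hsum J) hC₀)
  have hlim : Tendsto (fun J => S * (|C| * (Real.exp (δ * A) * C₁ * W (g J)))) atTop (𝓝 0) := by
    have h1 := F.path_W hg1 hδ
    have h2 := ((h1.const_mul (Real.exp (δ * A) * C₁)).const_mul |C|).const_mul S
    simpa using h2
  have h0 : ‖O.bα b x‖ ≤ 0 := ge_of_tendsto hlim (Eventually.of_forall hbd)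
  rw [N_eq_zero_iff]
  exact norm_le_zero_iff.1 h0

end Fact

end Vale.Agent.P267.H205
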