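import Vale.Agent.P267.H457.Chain
import Vale.Agent.P267.H338.CountCore
import Vale.Agent.P267.H757.NF6
import Vale.Agent.P267.H206.Fa5

/-!
# P267, block G, package G-ORD (helper205): the input of the order theorem

`HeadsIn O`: for every `i : Fin n` an embedded line `φ`, a norm function `Nc` of it and a finite set
`I` of classes with `N_i = Nc * ∏_{j ∈ I} N_j`. `Fact O` is the same for all translates.
-/

set_option linter.unusedVariables false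
set_option linter.unusedSectionVars false

open scoped Manifold ContDiff ComplexConjugate Matrix Topology
open Set Filter
open Vale.Agent.P272.K (Cm)
open Vale.Agent.P267.FL Vale.Agent.P267.H158 Vale.Agent.P267.XT Vale.Agent.P267.H338
open Vale.Agent.P267.H757 Vale.Agent.P267.LineX

noncomputable section

namespace Vale.Agent.P267.H205

variable {X : Type} [TopologicalSpace X] [ChartedSpace C2 X] [IsManifold 𝓘(ℂ, C2) ω X] {n : ℕ}

/-- The factorisation of the divisors `D_i`, `i : Fin n` (helper75, helper206). -/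
def HeadsIn (O : BlockOut X n) : Prop :=
  ∀ i : Fin n, ∃ (φ : EmbP1 (Cov O.B.hh)) (Nc : Cov O.B.hh → ℝ) (I : Finset (Fin n × ℤ)),
    IsNormFn C2 Nc ∧ (∀ x, Nc x = 0 ↔ x ∈ φ.image) ∧
    (∀ x ∈ φ.image, ∃ U g ψ, x ∈ U ∧ LocRep C2 Nc U g ψ ∧ mfderiv 𝓘(ℂ, C2) 𝓘(ℂ) g x ≠ 0) ∧
    (∃ K : ℝ, 0 < K ∧ ∀ x, O.B.D.f x ≤ -K → K⁻¹ ≤ Nc x ∧ Nc x ≤ K) ∧
    (∀ x, O.N (i, 0) x = Nc x * ∏ j ∈ I, O.N j x) ∧
    ∃ A : H206.MB O, ∀ x, Nc x = ‖A.α x‖ ^ 2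

/-- The curves `C b`, their norm functions, and the finite sets `I b` with
`D_b = C_b + ∑_{j ∈ I b} D_j`. -/
structure Fact (O : BlockOut X n) where
  C : Fin n × ℤ → EmbP1 (Cov O.B.hh)
  C_shift : ∀ i k, (C (i, k)).image = O.B.D.sh k '' (C (i, 0)).image
  Nc : Fin n × ℤ → Cov O.B.hh → ℝ
  Nc_norm : ∀ b, IsNormFn C2 (Nc b)
  Nc_zero : ∀ b x, Nc b x = 0 ↔ x ∈ (C b).image
  Nc_red : ∀ b, ∀ x ∈ (C b).image, ∃ U g ψ, x ∈ U ∧ LocRep C2 (Nc b) U g ψ ∧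
    mfderiv 𝓘(ℂ, C2) 𝓘(ℂ) g x ≠ 0
  Nc_in : ∀ b, ∃ K : ℝ, 0 < K ∧ ∀ x, O.B.D.f x ≤ -K → K⁻¹ ≤ Nc b x ∧ Nc b x ≤ K
  I : Fin n × ℤ → Finset (Fin n × ℤ)
  I_shift : ∀ i k j l, (j, l) ∈ I (i, k) ↔ (j, l - k) ∈ I (i, 0)
  fact : ∀ b x, O.N b x = Nc b x * ∏ j ∈ I b, O.N j x
  /-- `Nc b` is the squared norm of a monic section -/
  bun : ∀ b, ∃ A : H206.MB O, ∀ x, Nc b x = ‖A.α x‖ ^ 2

section shift

variable (O : BlockOut X n)

theorem sh_eq (k : ℤ) : O.B.D.sh k = (Cov.shift k : Cov O.B.hh → Cov O.B.hh) := by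
  funext x
  exact H824.sh_eq_shift O.B.D O.B.γ_eq k x

theorem isAct_sh : IsAct (O.B.D.sh : ℤ → Cov O.B.hh → Cov O.B.hh) := by
  have h := isAct_shift (hh := O.B.hh)
  have e : (fun k : ℤ => (Cov.shift k : Cov O.B.hh → Cov O.B.hh)) = O.B.D.sh := by
    funext k
    rw [sh_eq O k]
  rwa [e] at h

omit [IsManifold 𝓘(ℂ, C2) ω X] in
theorem N_shift (i : Fin n) (k l : ℤ) (x : Cov O.B.hh) :
    O.N (i, k) x = O.N (i, k - l) (O.B.D.sh (-l) x) := by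
  unfold BlockOut.N BlockOut.bα
  simp only
  rw [← O.B.D.sh_add]
  congr 4
  ring

theorem openMap_sh (k : ℤ) : IsOpenMap (O.B.D.sh k) := (O.B.D.γ ^ k).isOpenMap

theorem isNormFn_sh {N : Cov O.B.hh → ℝ} (hN : IsNormFn C2 N) (k : ℤ) :
    IsNormFn C2 (fun x => N (O.B.D.sh k x)) :=
  hN.comp ((isAct_sh O).mdiff k) ((contMDiff_real ((isAct_sh O).hol k)).of_le le_top)
    (openMap_sh O k)

theorem locRep_sh {N : Cov O.B.hh → ℝ} {U : Set (Cov O.B.hh)} {g : Cov O.B.hh → ℂ}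
    {ψ : Cov O.B.hh → ℝ} (h : LocRep C2 N U g ψ) (k : ℤ) :
    LocRep C2 (fun x => N (O.B.D.sh k x)) (univ ∩ O.B.D.sh k ⁻¹' U)
      (fun x => g (O.B.D.sh k x)) (fun x => ψ (O.B.D.sh k x)) :=
  h.comp isOpen_univ ((isAct_sh O).mdiff k).mdifferentiableOn
    ((contMDiff_real ((isAct_sh O).hol k)).of_le le_top).contMDiffOn
    (fun B hB _ => openMap_sh O k B hB)

theorem mfderiv_sh_ne {U : Set (Cov O.B.hh)} (hU : IsOpen U) {g : Cov O.B.hh → ℂ}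
    (hg : MDifferentiableOn 𝓘(ℂ, C2) 𝓘(ℂ) g U) (k : ℤ) {x : Cov O.B.hh}
    (hx : O.B.D.sh k x ∈ U) (hne : mfderiv 𝓘(ℂ, C2) 𝓘(ℂ) g (O.B.D.sh k x) ≠ 0) :
    mfderiv 𝓘(ℂ, C2) 𝓘(ℂ) (fun x => g (O.B.D.sh k x)) x ≠ 0 := by
  intro h0
  apply hne
  have hgx : MDifferentiableAt 𝓘(ℂ, C2) 𝓘(ℂ) g (O.B.D.sh k x) :=
    (hg _ hx).mdifferentiableAt (hU.mem_nhds hx)
  have h1 : mfderiv 𝓘(ℂ, C2) 𝓘(ℂ) (g ∘ O.B.D.sh k) x =
      (mfderiv 𝓘(ℂ, C2) 𝓘(ℂ) g (O.B.D.sh k x)).comp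
        (mfderiv 𝓘(ℂ, C2) 𝓘(ℂ, C2) (O.B.D.sh k) x) :=
    mfderiv_comp x hgx ((isAct_sh O).mdiff k x)
  have h2 : mfderiv 𝓘(ℂ, C2) 𝓘(ℂ) (g ∘ O.B.D.sh k) x = 0 := h0
  -- `g` is the composition with the inverse
  have h3 : (fun y => (g ∘ O.B.D.sh k) (O.B.D.sh (-k) y)) = g := by
    funext y
    simp only [Function.comp_apply, O.B.D.sh_sh_neg]
  have hgk : MDifferentiableAt 𝓘(ℂ, C2) 𝓘(ℂ) (g ∘ O.B.D.sh k)
      (O.B.D.sh (-k) (O.B.D.sh k x)) := by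
    rw [O.B.D.sh_neg_sh]
    exact MDifferentiableAt.comp x hgx ((isAct_sh O).mdiff k x)
  have h4 : mfderiv 𝓘(ℂ, C2) 𝓘(ℂ) ((g ∘ O.B.D.sh k) ∘ O.B.D.sh (-k)) (O.B.D.sh k x) =
      (mfderiv 𝓘(ℂ, C2) 𝓘(ℂ) (g ∘ O.B.D.sh k) (O.B.D.sh (-k) (O.B.D.sh k x))).comp
        (mfderiv 𝓘(ℂ, C2) 𝓘(ℂ, C2) (O.B.D.sh (-k)) (O.B.D.sh k x)) :=
    mfderiv_comp _ hgk ((isAct_sh O).mdiff (-k) _)
  have h5 : (g ∘ O.B.D.sh k) ∘ O.B.D.sh (-k) = g := h3
  rw [h5, O.B.D.sh_neg_sh, h2] at h4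
  rw [h4]
  exact ContinuousLinearMap.zero_comp _

end shift

/-- translate of a bundle with a monic section -/
def mbShift {O : BlockOut X n} (A : H206.MB O) (k : ℤ) : H206.MB O where
  L := ⟨A.L.ι, O.B.D.shL k A.L.L⟩
  j := A.j
  R := A.R + |(k : ℝ)|
  a := fun x => A.a (O.B.D.sh k x)
  α := fun x => A.α (O.B.D.sh k x)
  ends := H206.endTriv_shift (H206.MB.d₀_pos O).le A.ends k
  mon := A.mon.shift (H206.MB.d₀_pos O) k

/-- outward translation of the classes -/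
def shE (n : ℕ) (k : ℤ) : Fin n × ℤ ↪ Fin n × ℤ where
  toFun j := (j.1, j.2 + k)
  inj' p q hpq := by
    simp only [Prod.mk.injEq, add_left_inj] at hpq
    exact Prod.ext hpq.1 hpq.2

@[simp] theorem shE_apply (n : ℕ) (k : ℤ) (j : Fin n × ℤ) : shE n k j = (j.1, j.2 + k) := rfl

theorem HeadsIn.fact {O : BlockOut X n} (h : HeadsIn O) : Nonempty (Fact O) := by
  classical
  choose φ Nc I h1 h2 h3 h4 h5 h6 using h
  choose C hC using fun b : Fin n × ℤ => (isAct_sh O).exists_map b.2 (φ b.1)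
  have hC0 : ∀ i, (C (i, 0)).image = (φ i).image := by
    intro i
    rw [hC]
    have : O.B.D.sh 0 = id := by funext x; exact O.B.D.sh_zero x
    simp only [this, image_id]
  refine ⟨{
    C := C
    C_shift := fun i k => by rw [hC, hC0]
    Nc := fun b x => Nc b.1 (O.B.D.sh (-b.2) x)
    Nc_norm := fun b => isNormFn_sh O (h1 b.1) (-b.2)
    Nc_zero := fun b x => ?_
    Nc_red := fun b x hx => ?_
    Nc_in := fun b => ?_
    I := fun b => (I b.1).map (shE n b.2)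
    I_shift := fun i k j l => ?_
    fact := fun b x => ?_
    bun := fun b => ?_ }⟩
  · rw [h2, hC]
    constructor
    · intro h
      exact ⟨_, h, O.B.D.sh_sh_neg _ _⟩
    · rintro ⟨y, hy, rfl⟩
      rwa [O.B.D.sh_neg_sh]
  · rw [hC] at hx
    obtain ⟨y, hy, rfl⟩ := hx
    obtain ⟨U, g, ψ, hU, hr, hne⟩ := h3 b.1 y hy
    refine ⟨_, _, _, ?_, locRep_sh O hr (-b.2), ?_⟩
    · refine ⟨mem_univ _, ?_⟩
      rw [mem_preimage, O.B.D.sh_neg_sh]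
      exact hU
    · refine mfderiv_sh_ne O hr.isOpen hr.hol (-b.2) ?_ ?_
      · rw [O.B.D.sh_neg_sh]; exact hU
      · rw [O.B.D.sh_neg_sh]; exact hne
  · obtain ⟨K, hK, hb⟩ := h4 b.1
    refine ⟨K + |(b.2 : ℝ)| + max K K⁻¹, by positivity, fun x hx => ?_⟩
    have h6 : O.B.D.f (O.B.D.sh (-b.2) x) ≤ -K := by
      rw [O.B.D.f_sh]
      have h7 : -(b.2 : ℝ) ≤ |(b.2 : ℝ)| := neg_le_abs _
      have h8 : 0 ≤ max K K⁻¹ := hK.le.trans (le_max_left _ _)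
      push_cast
      linarith
    obtain ⟨h9, h10⟩ := hb _ h6
    have h11 : K ≤ K + |(b.2 : ℝ)| + max K K⁻¹ := by
      have h8 : 0 ≤ max K K⁻¹ := hK.le.trans (le_max_left _ _)
      have := abs_nonneg (b.2 : ℝ)
      linarith
    refine ⟨?_, h10.trans h11⟩
    exact (inv_anti₀ hK h11).trans h9
  · simp only [Finset.mem_map, shE_apply, Prod.mk.injEq, Prod.exists]
    constructor
    · rintro ⟨p, q, hpq, rfl, rfl⟩
      exact ⟨p, q, hpq, rfl, by ring⟩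
    · rintro ⟨p, q, hpq, rfl, hl⟩
      exact ⟨p, q, hpq, rfl, by linarith⟩
  · obtain ⟨i, k⟩ := b
    rw [N_shift O i k k x, sub_self, h5, Finset.prod_map]
    congr 1
    refine Finset.prod_congr rfl fun j _ => ?_
    obtain ⟨p, q⟩ := j
    rw [shE_apply]
    rw [N_shift O p (q + k) k x, add_sub_cancel_right]
  · obtain ⟨A, hA⟩ := h6 b.1
    exact ⟨mbShift A (-b.2), fun x => hA _⟩

end Vale.Agent.P267.H205
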