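import Vale.Agent.P267.H205.OrdThm
import Vale.Agent.P267.H75.Heads

/-!
# P267, block G, package G-ORD (helper205): `OrdThm`
-/

namespace Vale.Agent.P267.H205

/-- **G-ORD**: the structure theorem for the curves on the infinite cyclic cover. -/
theorem ordThm : LineX.OrdThm := ordThm_of fun X _ _ _ _ _ _ n O => H75.headsIn O

end Vale.Agent.P267.H205
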