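import Vale.Agent.P267.H205.Com
import Vale.Agent.P267.H205.Emb
import Vale.Agent.P267.H406.Pack
import Vale.Agent.P267.H995.NumbF
import Vale.Agent.P267.H406.Pos

/-!
# P267, block G, package G-ORD (helper205): the order theorem
-/

set_option linter.unusedVariables false
set_option linter.unusedSectionVars false

open scoped Manifold ContDiff ComplexConjugate Matrix Topology
open Set Filter
open Vale.Agent.P272.K (Cm)
open Vale.Agent.P267.FL Vale.Agent.P267.H158 Vale.Agent.P267.XT Vale.Agent.P267.H338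
open Vale.Agent.P267.H757 Vale.Agent.P267.LineX Vale.Agent.P267.H781 Vale.Agent.P267.H205.P1

noncomputable section

namespace Vale.Agent.P267.H205

variable {X : Type} [TopologicalSpace X] [T2Space X] [CompactSpace X] [ChartedSpace C2 X]
  [IsManifold 𝓘(ℂ, C2) ω X] {n : ℕ}

theorem EmbP1_not_countable {M : Type*} [TopologicalSpace M] [ChartedSpace C2 M] (φ : EmbP1 M) :
    ¬ φ.image.Countable := by
  intro h
  have h1 : (Set.range φ.f₀).Countable := h.mono fun x hx => Or.inl hx
  have h2 : (univ : Set ℂ).Countable := by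
    rw [← image_univ] at h1
    exact Set.MapsTo.countable_of_injOn (mapsTo_image φ.f₀ univ) φ.inj.injOn h1
  exact not_countable_complex h2

namespace Fact

variable {O : BlockOut X n} (F : Fact O)

include F

theorem not_mem_I (b : Fin n × ℤ) : b ∉ F.I b := fun h => F.acyclic h (Desc.refl _)

theorem eq_of_image {b c : Fin n × ℤ} (h : (F.C b).image = (F.C c).image) : b = c :=
  H995.eq_of_image_eq F F.not_mem_I h

theorem not_subset {b c : Fin n × ℤ} (h : b ≠ c) : ¬ (F.C b).image ⊆ (F.C c).image := fun hs =>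
  h (F.eq_of_image (Emb.image_eq_of_subset _ _ hs))

/-- a curve in the divisor of `α_b` is one of the curves below `b` -/
theorem desc_of_zero {b g : Fin n × ℤ} (h : ∀ x ∈ (F.C g).image, O.N b x = 0) : Desc F.I b g := by
  by_contra hcon
  apply EmbP1_not_countable (F.C g)
  have h1 : (F.C g).image ⊆ ⋃ i : {i : Fin n × ℤ // Desc F.I b i},
      ((F.C g).image ∩ (F.C i.1).image) := by
    intro x hx
    obtain ⟨i, hi, hxi⟩ := F.exists_mem_of_zero (h x hx)
    exact mem_iUnion.2 ⟨⟨i, hi⟩, hx, hxi⟩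
  refine (countable_iUnion fun i => ?_).mono h1
  rcases Emb.image_eq_or_finite (F.C g) (F.C i.1) with h2 | h2
  · exact absurd i.2 (by rw [← F.eq_of_image h2]; exact hcon)
  · exact h2.countable

/-- inward translation of the classes -/
def T (n : ℕ) : Equiv.Perm (Fin n × ℤ) where
  toFun b := (b.1, b.2 - 1)
  invFun b := (b.1, b.2 + 1)
  left_inv b := by simp
  right_inv b := by simp

theorem T_iff (b j : Fin n × ℤ) : j ∈ F.I b ↔ T n j ∈ F.I (T n b) := by
  obtain ⟨i, k⟩ := b
  obtain ⟨p, q⟩ := j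
  change (p, q) ∈ F.I (i, k) ↔ (p, q - 1) ∈ F.I (i, k - 1)
  rw [F.I_shift, F.I_shift i (k - 1)]
  have : q - 1 - (k - 1) = q - k := by ring
  rw [this]

end Fact

theorem T_pow (n : ℕ) (k : ℕ) (b : Fin n × ℤ) : ((Fact.T n) ^ k) b = (b.1, b.2 - k) := by
  induction k with
  | zero => simp
  | succ k ih =>
    rw [pow_succ', Equiv.Perm.mul_apply, ih]
    change (b.1, b.2 - k - 1) = _
    push_cast
    congr 1
    ring

theorem T_zpow (n : ℕ) (k : ℤ) (b : Fin n × ℤ) : ((Fact.T n) ^ k) b = (b.1, b.2 - k) := by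
  obtain ⟨m, rfl | rfl⟩ := k.eq_nat_or_neg
  · rw [zpow_natCast, T_pow]
  · rw [zpow_neg, zpow_natCast, Equiv.Perm.inv_eq_iff_eq, T_pow]
    simp

/-- the order theorem, with the positivity of the intersection numbers as input -/
theorem Fact.exists_chain {O : BlockOut X n} (F : Fact O) (hn : 0 < n)
    (hpos : ∀ b b', b ≠ b' → (F.I b ∩ F.I b').card ≤
      (if b' ∈ F.I b then 1 else 0) + (if b ∈ F.I b' then 1 else 0))
    (hmeet : ∀ b, ∃ j ∈ F.I b, ((F.C b).image ∩ (F.C j).image).Nonempty) : Nonempty (Chain O) := by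
  obtain ⟨K, hK⟩ := F.exists_deep hmeet
  have : Nonempty (Fin n × ℤ) := ⟨(⟨0, hn⟩, 0)⟩
  have hcom : ∀ b b' : Fin n × ℤ, ∃ N : ℕ, ∀ k, N ≤ k → Desc F.I b (((Fact.T n) ^ k) b') := by
    intro b b'
    obtain ⟨N, hN⟩ := exists_nat_ge (K + b'.2 - b.2)
    refine ⟨N, fun k hk => F.desc_of_zero ?_⟩
    refine hK b _ ?_
    rw [T_pow]
    push_cast
    have : (N : ℝ) ≤ k := by exact_mod_cast hk
    linarith
  have horb : ∃ S : Finset (Fin n × ℤ), ∀ b, ∃ s ∈ S, ∃ k : ℤ, ((Fact.T n) ^ k) s = b := by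
    refine ⟨Finset.univ.image fun i => (i, 0), fun b => ⟨(b.1, 0), ?_, -b.2, ?_⟩⟩
    · exact Finset.mem_image_of_mem _ (Finset.mem_univ _)
    · rw [T_zpow]
      simp
  obtain ⟨e, m, s, hm, heT, hs, hper, hI, hD, -⟩ := exists_equiv_int (Fact.T n) F.T_iff
    F.nonempty_I hpos (fun b j hj => F.acyclic hj) hcom horb
  have he : ∀ i k, e (i, k + 1) = e (i, k) + m := by
    intro i k
    have h1 := heT (i, k + 1)
    have h2 : Fact.T n (i, k + 1) = (i, k) := by
      change (i, k + 1 - 1) = _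
      rw [add_sub_cancel_right]
    rw [h2] at h1
    omega
  have hmn : m = n := H406.orbits hm he
  subst hmn
  have hw := word_of_equiv e hs hI hpos
  have hne : ∀ i l, i < l → ∃ x ∈ (F.C (e.symm l)).image, O.N (e.symm i) x ≠ 0 := by
    intro i l hil
    by_contra hcon
    push Not at hcon
    have h1 := (hD _ _).1 (F.desc_of_zero hcon)
    rw [Equiv.apply_symm_apply, Equiv.apply_symm_apply] at h1
    omega
  have hc := H995.cnt_of_fact F e hs hI hne
  exact H406.chain_of F F e s he hs hper hI hD hw.unit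
    (fun l j h1 h2 => hc.disj h1 h2) (fun l => hc.node l)
    (fun l p hp hp' U g φ U' g' φ' hU hU' h h' => hc.transv l p hp hp' hU hU' h h')

/-- **The structure theorem for the curves**, from the factorisation of the divisors. -/
theorem chain_of_heads {O : BlockOut X n} (h : HeadsIn O) : Nonempty (Chain O) := by
  obtain ⟨F⟩ := h.fact
  have hdeg : ∀ b c, degOn (O.bL c) (H995.reg_ba O c) (F.C b).toP1Map =
      (if c ∈ F.I b then 1 else 0) - (if c = b then 1 else 0) := fun b c =>
    H995.deg_formula O (F.C b) (F.Nc_norm b) (F.Nc_zero b) (F.Nc_red b) (F.fact b) c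
  exact F.exists_chain O.vii.pos (H406.hpos F hdeg fun b b' hne => F.not_subset hne)
    (H406.meet F hdeg)

theorem ordThm_of (h : ∀ (X : Type) [TopologicalSpace X] [T2Space X] [CompactSpace X]
    [ConnectedSpace X] [ChartedSpace C2 X] [IsManifold 𝓘(ℂ, C2) ω X] (n : ℕ) (O : BlockOut X n),
    HeadsIn O) : OrdThm := fun X _ _ _ _ _ _ n O => chain_of_heads (h X n O)

end Vale.Agent.P267.H205
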