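import Vale.Agent.P267.H205.P1h
import Vale.Agent.P267.H399.LBCalc
import Vale.Agent.P267.H338.LocEq

/-!
# P267, block G, package G-P1 (helper205): restriction of line bundles to a curve `ℙ¹ → M`
-/

open Filter Topology MeasureTheory Set Metric
open scoped ContDiff Real ComplexConjugate Manifold

namespace Vale.Agent.P267.H205.P1

open FL

noncomputable section

variable {M : Type*} [TopologicalSpace M] [ChartedSpace C2 M]
variable {V : Type*} [NormedAddCommGroup V] [NormedSpace ℂ V]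

/-- velocity of a holomorphic curve, in the preferred coordinates -/
def vel (f : ℂ → M) (z : ℂ) : C2 := mfderiv 𝓘(ℂ) 𝓘(ℂ, C2) f z (1 : ℂ)

/-- pullback of a `(0,1)`-form: coefficient of `dz̄` -/
def pulla (a : M → Fin 2 → V) (f : ℂ → M) (z : ℂ) : V := ∑ p, conj (vel f z p) • a (f z) p

/-- chain rule for a function on `ℂ²` and a holomorphic curve -/
theorem db_comp_curve {G : C2 → V} {F : ℂ → C2} {z : ℂ} (hG : DifferentiableAt ℝ G (F z))
    (hF : DifferentiableAt ℂ F z) :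
    db (fun z => G (F z)) z = ∑ i, conj (deriv F z i) • dzb i G (F z) := by
  unfold db
  have h : fderiv ℝ (fun z => G (F z)) z =
      (fderiv ℝ G (F z)).comp ((fderiv ℂ F z).restrictScalars ℝ) :=
    (hG.hasFDerivAt.comp z (hF.hasFDerivAt.restrictScalars ℝ)).fderiv
  rw [h]
  simp only [ContinuousLinearMap.comp_apply, ContinuousLinearMap.coe_restrictScalars']
  rw [fderiv_eq_smul_deriv, fderiv_eq_smul_deriv, one_smul]
  set w := deriv F z
  have e1 := fderiv_eq_wirt (f := G) (z := F z) w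
  have e2 := fderiv_eq_wirt (f := G) (z := F z) (Complex.I • w)
  rw [e1, e2]
  simp only [Fin.sum_univ_two, Pi.smul_apply, smul_eq_mul, map_mul, Complex.conj_I]
  have hI : Complex.I * Complex.I = -1 := Complex.I_mul_I
  simp only [smul_add, smul_smul]
  match_scalars
  · linear_combination (1 / 2 * w 0) * hI
  · linear_combination (-1 / 2 * (starRingEnd ℂ) (w 0)) * hI
  · linear_combination (1 / 2 * w 1) * hI
  · linear_combination (-1 / 2 * (starRingEnd ℂ) (w 1)) * hI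

variable [IsManifold 𝓘(ℂ, C2) ω M]

theorem chart_mdiffAt {e : Ch M} (he : e ∈ atlas C2 M) {x : M} (hx : x ∈ e.source) :
    MDifferentiableAt 𝓘(ℂ, C2) 𝓘(ℂ, C2) e x :=
  (H338.chart_mdiff he).mdifferentiableAt hx

/-- the curve in a chart is holomorphic -/
theorem curve_diff {f : ℂ → M} {z : ℂ} (hf : MDifferentiableAt 𝓘(ℂ) 𝓘(ℂ, C2) f z) {e : Ch M}
    (he : e ∈ atlas C2 M) (hz : f z ∈ e.source) : DifferentiableAt ℂ (fun z => e (f z)) z := by
  have h1 : MDifferentiableAt 𝓘(ℂ) 𝓘(ℂ, C2) (e ∘ f) z :=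
    MDifferentiableAt.comp z (chart_mdiffAt he hz) hf
  exact mdifferentiableAt_iff_differentiableAt.1 h1

omit [IsManifold 𝓘(ℂ, C2) ω M] in
theorem vel_chartAt {f : ℂ → M} {z : ℂ} (hf : MDifferentiableAt 𝓘(ℂ) 𝓘(ℂ, C2) f z) :
    vel f z = deriv (fun y => chartAt C2 (f z) (f y)) z := by
  unfold vel
  rw [hf.mfderiv]
  simp only [writtenInExtChartAt, extChartAt, mfld_simps]
  rw [fderivWithin_univ]
  rfl

/-- the velocity in terms of a chart -/
theorem vel_eq {f : ℂ → M} {z : ℂ} (hf : MDifferentiableAt 𝓘(ℂ) 𝓘(ℂ, C2) f z) {e : Ch M}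
    (he : e ∈ atlas C2 M) (hz : f z ∈ e.source) :
    vel f z = (jac e (f z)).mulVec (deriv (fun y => e (f y)) z) := by
  rw [vel_chartAt hf, jac, jacM_mulVec he (chart_mem_atlas C2 _) hz (mem_chart_source C2 _)]
  have h1 : (fun y => chartAt C2 (f z) (f y)) =ᶠ[𝓝 z]
      fun y => (fun w => chartAt C2 (f z) (e.symm w)) (e (f y)) := by
    filter_upwards [hf.continuousAt.preimage_mem_nhds (e.open_source.mem_nhds hz)] with y hy
    rw [e.left_inv hy]
  rw [h1.deriv_eq]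
  have h2 : DifferentiableAt ℂ (fun w => chartAt C2 (f z) (e.symm w)) (e (f z)) :=
    trans_differentiableAt he (chart_mem_atlas C2 _) hz (mem_chart_source C2 _)
  have h3 := curve_diff hf he hz
  have h4 := (h2.hasFDerivAt.comp_hasDerivAt z h3.hasDerivAt).deriv
  exact h4

/-- the pulled back form in terms of a chart -/
theorem pulla_eq {f : ℂ → M} {z : ℂ} (hf : MDifferentiableAt 𝓘(ℂ) 𝓘(ℂ, C2) f z) {e : Ch M}
    (he : e ∈ atlas C2 M) (hz : f z ∈ e.source) (a : M → Fin 2 → V) :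
    pulla a f z = ∑ i, conj (deriv (fun y => e (f y)) z i) • loc1 0 e a (e (f z)) i := by
  unfold pulla
  simp only [loc1_source hz, zpow_zero, one_smul]
  rw [vel_eq hf he hz]
  simp only [Matrix.mulVec, dotProduct, Fin.sum_univ_two, map_add, map_mul]
  module

theorem contDiffAt_pulla {f : ℂ → M} (hf : MDifferentiable 𝓘(ℂ) 𝓘(ℂ, C2) f) {a : M → Fin 2 → V}
    (ha : Reg1 ∞ 0 a) (z : ℂ) : ContDiffAt ℝ ∞ (pulla a f) z := by
  set e := chartAt C2 (f z) with hed
  have he : e ∈ atlas C2 M := chart_mem_atlas C2 _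
  have hz : f z ∈ e.source := mem_chart_source C2 _
  have hU : f ⁻¹' e.source ∈ 𝓝 z := (hf z).continuousAt.preimage_mem_nhds (e.open_source.mem_nhds hz)
  have h1 : pulla a f =ᶠ[𝓝 z]
      fun y => ∑ i, conj (deriv (fun y => e (f y)) y i) • loc1 0 e a (e (f y)) i := by
    filter_upwards [hU] with y hy
    exact pulla_eq (hf y) he hy a
  refine ContDiffAt.congr_of_eventuallyEq ?_ h1
  have hopen : IsOpen (f ⁻¹' e.source) := e.open_source.preimage hf.continuous
  have hF : DifferentiableOn ℂ (fun y => e (f y)) (f ⁻¹' e.source) := fun y hy =>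
    (curve_diff (hf y) he hy).differentiableWithinAt
  have hFc : ContDiffAt ℂ ∞ (fun y => e (f y)) z := (hF.contDiffOn hopen).contDiffAt hU
  have hdF : ContDiffAt ℂ ∞ (deriv fun y => e (f y)) z := by
    have := hF.deriv hopen
    exact (this.contDiffOn hopen).contDiffAt hU
  refine ContDiffAt.sum fun i _ => ?_
  have c1 : ContDiffAt ℝ ∞ (fun y => conj (deriv (fun y => e (f y)) y i)) z := by
    have h2 : ContDiffAt ℝ ∞ (fun y => deriv (fun y => e (f y)) y i) z :=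
      (contDiffAt_pi.1 hdF i).restrict_scalars ℝ
    exact Complex.conjCLE.contDiff.contDiffAt.comp z h2
  have c2 : ContDiffAt ℝ ∞ (fun y => loc1 0 e a (e (f y)) i) z := by
    have h3 : ContDiffAt ℝ ∞ (loc1 0 e a) (e (f z)) := ha.contDiffAt he (e.map_source hz)
    exact (contDiffAt_pi.1 h3 i).comp z (hFc.restrict_scalars ℝ)
  exact c1.smul c2

theorem contDiff_comp_curve {f : ℂ → M} (hf : MDifferentiable 𝓘(ℂ) 𝓘(ℂ, C2) f) {s : M → V}
    (hs : Reg0 ∞ 0 s) : ContDiff ℝ ∞ fun z => s (f z) := by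
  rw [contDiff_iff_contDiffAt]
  intro z
  set e := chartAt C2 (f z) with hed
  have he : e ∈ atlas C2 M := chart_mem_atlas C2 _
  have hz : f z ∈ e.source := mem_chart_source C2 _
  have hU : f ⁻¹' e.source ∈ 𝓝 z := (hf z).continuousAt.preimage_mem_nhds (e.open_source.mem_nhds hz)
  have hopen : IsOpen (f ⁻¹' e.source) := e.open_source.preimage hf.continuous
  have hF : DifferentiableOn ℂ (fun y => e (f y)) (f ⁻¹' e.source) := fun y hy =>
    (curve_diff (hf y) he hy).differentiableWithinAt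
  have hFc : ContDiffAt ℂ ∞ (fun y => e (f y)) z := (hF.contDiffOn hopen).contDiffAt hU
  have h1 : (fun y => s (f y)) =ᶠ[𝓝 z] fun y => loc0 0 e s (e (f y)) := by
    filter_upwards [hU] with y hy
    rw [loc0_source hy]
    simp
  refine ContDiffAt.congr_of_eventuallyEq ?_ h1
  exact (hs.contDiffAt he (e.map_source hz)).comp z (hFc.restrict_scalars ℝ)

/-- `∂̄` of the restriction to the curve -/
theorem db_comp_eq {f : ℂ → M} {z : ℂ} (hf : MDifferentiable 𝓘(ℂ) 𝓘(ℂ, C2) f) {s : M → V}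
    (hs : Reg0 ∞ 0 s) : db (fun z => s (f z)) z = pulla (dbar0 0 s) f z := by
  set e := chartAt C2 (f z) with hed
  have he : e ∈ atlas C2 M := chart_mem_atlas C2 _
  have hz : f z ∈ e.source := mem_chart_source C2 _
  have hU : f ⁻¹' e.source ∈ 𝓝 z := (hf z).continuousAt.preimage_mem_nhds (e.open_source.mem_nhds hz)
  have h1 : (fun y => s (f y)) =ᶠ[𝓝 z] fun y => loc0 0 e s (e (f y)) := by
    filter_upwards [hU] with y hy
    rw [loc0_source hy]
    simp
  have hsm : DifferentiableAt ℝ (loc0 0 e s) (e (f z)) :=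
    (hs.contDiffAt he (e.map_source hz)).differentiableAt (by simp)
  rw [db_congr h1, db_comp_curve hsm (curve_diff (hf z) he hz), pulla_eq (hf z) he hz]
  refine Finset.sum_congr rfl fun i _ => ?_
  rw [loc1_dbar0 he (e.map_source hz) hsm]

omit [IsManifold 𝓘(ℂ, C2) ω M] in
/-- change of parameter `w = 1/z` -/
theorem vel_inv {f g : ℂ → M} (hg : MDifferentiable 𝓘(ℂ) 𝓘(ℂ, C2) g)
    (hfg : ∀ z, z ≠ 0 → f z = g z⁻¹) {z : ℂ} (hz : z ≠ 0) :
    vel f z = (-(z ^ 2)⁻¹) • vel g z⁻¹ := by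
  have h1 : f =ᶠ[𝓝 z] g ∘ fun z => z⁻¹ := by
    filter_upwards [isOpen_ne.mem_nhds hz] with y hy
    exact hfg y hy
  have h2 : MDifferentiableAt 𝓘(ℂ) 𝓘(ℂ) (fun z : ℂ => z⁻¹) z :=
    mdifferentiableAt_iff_differentiableAt.2 (differentiableAt_inv' hz)
  unfold vel
  rw [h1.mfderiv_eq, mfderiv_comp z (hg _) h2, mfderiv_eq_fderiv]
  change mfderiv 𝓘(ℂ) 𝓘(ℂ, C2) g z⁻¹ (fderiv ℂ (fun z : ℂ => z⁻¹) z 1) = _
  rw [fderiv_eq_smul_deriv, one_smul, deriv_inv_fun]
  have h3 := (mfderiv 𝓘(ℂ) 𝓘(ℂ, C2) g z⁻¹).map_smul (-(z ^ 2)⁻¹) (1 : ℂ)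
  have e : ((-(z ^ 2)⁻¹) • (1 : ℂ)) = -(z ^ 2)⁻¹ := by simp
  exact (congrArg (mfderiv 𝓘(ℂ) 𝓘(ℂ, C2) g z⁻¹) e).symm.trans h3

omit [IsManifold 𝓘(ℂ, C2) ω M] in
theorem pulla_inv {f g : ℂ → M} (hg : MDifferentiable 𝓘(ℂ) 𝓘(ℂ, C2) g)
    (hfg : ∀ z, z ≠ 0 → f z = g z⁻¹) (a : M → Fin 2 → V) {z : ℂ} (hz : z ≠ 0) :
    pulla a f z = conj (-(z ^ 2)⁻¹) • pulla a g z⁻¹ := by
  unfold pulla
  rw [vel_inv hg hfg hz, hfg z hz, Finset.smul_sum]
  refine Finset.sum_congr rfl fun p _ => ?_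
  rw [Pi.smul_apply, smul_eq_mul, map_mul, mul_smul]

/-! ### line bundles -/

section LB

variable {ι : Type} [Fintype ι] [DecidableEq ι] {ι' : Type} [Fintype ι'] [DecidableEq ι']

omit [IsManifold 𝓘(ℂ, C2) ω M] in
theorem actL_rank (L : LB M ι) (x : M) : ∃ e : EuclideanSpace ℂ ι, e ≠ 0 ∧
    LB.actL (L.P x) e = e ∧ ∀ v, ∃ c : ℂ, LB.actL (L.P x) v = c • e := by
  obtain ⟨v, hv, hv1⟩ := L.exists_vec x
  have key : ∀ w : EuclideanSpace ℂ ι,
      LB.actL (L.P x) w = (∑ j, conj (v j) * w j) • (WithLp.toLp 2 v : EuclideanSpace ℂ ι) := by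
    intro w
    ext i
    rw [LB.actL_apply, LB.act_apply]
    simp only [hv, PiLp.smul_apply, smul_eq_mul, Finset.sum_mul]
    exact Finset.sum_congr rfl fun j _ => by ring
  refine ⟨WithLp.toLp 2 v, ?_, ?_, fun w => ⟨_, key w⟩⟩
  · intro h0
    have h1 : ∀ i, v i = 0 := fun i => by
      have := congrArg (fun u : EuclideanSpace ℂ ι => u i) h0
      simpa using this
    rw [Finset.sum_eq_zero fun i _ => by rw [h1 i, zero_mul]] at hv1
    exact zero_ne_one hv1
  · rw [key]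
    have : (∑ j, conj (v j) * (WithLp.toLp 2 v : EuclideanSpace ℂ ι) j) = 1 := by
      rw [← hv1]
      exact Finset.sum_congr rfl fun j _ => by rw [mul_comm]
    rw [this, one_smul]

/-- the restriction of a line bundle to a holomorphic curve `ℂ → M` -/
def pullC (L : LB M ι) {a : M → Fin 2 → ℂ} (ha : Reg1 ∞ 0 a) {f : ℂ → M}
    (hf : MDifferentiable 𝓘(ℂ) 𝓘(ℂ, C2) f) : LC (EuclideanSpace ℂ ι) where
  T z := LB.actL (L.P (f z))
  a := pulla a f
  smooth_T := by
    have h : (fun z => LB.actL (L.P (f z))) =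
        fun z => ∑ i, ∑ j, L.P (f z) i j • LB.elem (ι := ι) i j := by
      funext z
      ext v : 1
      rw [LB.actL_apply, LB.act_eq_sum']
      simp only [FunLike.coe_sum, Finset.sum_apply, FunLike.coe_smul, Pi.smul_apply]
    rw [h]
    refine ContDiff.sum fun i _ => ContDiff.sum fun j _ => ?_
    exact (contDiff_comp_curve hf (L.smooth i j)).smul contDiff_const
  smooth_a := contDiff_iff_contDiffAt.2 fun z => contDiffAt_pulla hf ha z
  idem z v := by
    rw [LB.actL_apply, LB.actL_apply, ← LB.act_mul, L.idem]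
  rank z := actL_rank L (f z)

/-- the restriction of a holomorphic line bundle to a curve `ℙ¹ → M` -/
def pull (L : LB M ι) {a : M → Fin 2 → ℂ} (ha : Reg1 ∞ 0 a) (φ : P1Map M) :
    LP1 (EuclideanSpace ℂ ι) where
  L₀ := pullC L ha φ.holo₀
  L₁ := pullC L ha φ.holo₁
  glue_T z hz := by
    change LB.actL (L.P (φ.f₀ z)) = LB.actL (L.P (φ.f₁ z⁻¹))
    rw [φ.glue z hz]
  glue_a z hz := pulla_inv φ.holo₁ φ.glue a hz

/-- the covariant derivative of the restriction of a section -/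
theorem pullC_D (L : LB M ι) {a : M → Fin 2 → ℂ} (ha : Reg1 ∞ 0 a) {f : ℂ → M}
    (hf : MDifferentiable 𝓘(ℂ) 𝓘(ℂ, C2) f) {s : M → EuclideanSpace ℂ ι} (hs : Reg0 ∞ 0 s) (z : ℂ) :
    (pullC L ha hf).D (fun z => s (f z)) z = pulla (L.db0 a 0 s) f z := by
  unfold LC.D
  rw [db_comp_eq hf hs]
  change LB.actL (L.P (f z)) (pulla (dbar0 0 s) f z) + pulla a f z • s (f z) = _
  unfold pulla LB.db0
  simp only [map_sum, map_smul, LB.actL_apply, Finset.sum_smul, ← Finset.sum_add_distrib]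
  refine Finset.sum_congr rfl fun p _ => ?_
  simp only [smul_add, smul_smul, smul_eq_mul]

/-- restriction of a holomorphic section -/
theorem holSec_pull (L : LB M ι) {a : M → Fin 2 → ℂ} (ha : Reg1 ∞ 0 a) (φ : P1Map M)
    {s : M → EuclideanSpace ℂ ι} (hs : Reg0 ∞ 0 s) (hsec : L.Sec s)
    (hhol : ∀ x i, L.db0 a 0 s x i = 0) :
    HolSec (pull L ha φ) (fun z => s (φ.f₀ z)) (fun z => s (φ.f₁ z)) where
  sec₀ := ⟨contDiff_comp_curve φ.holo₀ hs, fun z => hsec _⟩
  sec₁ := ⟨contDiff_comp_curve φ.holo₁ hs, fun z => hsec _⟩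
  hol₀ z := by
    change (pullC L ha φ.holo₀).D _ z = 0
    rw [pullC_D L ha φ.holo₀ hs]
    unfold pulla
    simp [hhol]
  hol₁ z := by
    change (pullC L ha φ.holo₁).D _ z = 0
    rw [pullC_D L ha φ.holo₁ hs]
    unfold pulla
    simp [hhol]
  glue z hz := by simp only [φ.glue z hz]

/-- the degree of `(L, a)` on the curve `φ : ℙ¹ → M` -/
def degOn (L : LB M ι) {a : M → Fin 2 → ℂ} (ha : Reg1 ∞ 0 a) (φ : P1Map M) : ℤ := (pull L ha φ).deg

end LB

end

end Vale.Agent.P267.H205.P1
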