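import Vale.Agent.P267.H205.P1i
import Vale.Agent.P267.H378.Met2
import Vale.Agent.P267.H877.Norms

/-!
# P267, block G, package G-P1 (helper205): bounds for restrictions to curves
-/

open Filter Topology MeasureTheory Set Metric
open scoped ContDiff Real ComplexConjugate Manifold

namespace Vale.Agent.P267.H205.P1

open FL XT

noncomputable section

variable {M : Type} [TopologicalSpace M] [ChartedSpace C2 M] [IsManifold 𝓘(ℂ, C2) ω M]

theorem pulla_le_local {h : M → Matrix (Fin 2) (Fin 2) ℂ} (hh : IsHerm h) {f : ℂ → M}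
    (hf : MDifferentiable 𝓘(ℂ) 𝓘(ℂ, C2) f) (z₀ : ℂ) :
    ∃ C : ℝ, 0 ≤ C ∧ ∀ᶠ z in 𝓝 z₀, ∀ a : M → Fin 2 → ℂ,
      ‖pulla a f z‖ ≤ C * n1 h 0 a (f z) := by
  set e := chartAt C2 (f z₀) with hed
  have he : e ∈ atlas C2 M := chart_mem_atlas C2 _
  have hz : f z₀ ∈ e.source := mem_chart_source C2 _
  have hopen : IsOpen (f ⁻¹' e.source) := e.open_source.preimage hf.continuous
  have hF : DifferentiableOn ℂ (fun y => e (f y)) (f ⁻¹' e.source) := fun y hy =>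
    (curve_diff (hf y) he hy).differentiableWithinAt
  have hdF : ContinuousAt (deriv fun y => e (f y)) z₀ :=
    ((hF.deriv hopen).continuousOn).continuousAt (hopen.mem_nhds hz)
  have hFc : ContinuousAt (fun y => e (f y)) z₀ :=
    hF.continuousOn.continuousAt (hopen.mem_nhds hz)
  obtain ⟨K, hK, hKt, hKc⟩ := exists_compact_subset e.open_target (e.map_source hz)
  obtain ⟨C, hC, hCK⟩ := H378.n1_compare hh he hKc hK 0
  refine ⟨2 * (‖deriv (fun y => e (f y)) z₀‖ + 1) * C, by positivity, ?_⟩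
  have h1 : ∀ᶠ z in 𝓝 z₀, ‖deriv (fun y => e (f y)) z‖ < ‖deriv (fun y => e (f y)) z₀‖ + 1 :=
    hdF.norm.eventually (gt_mem_nhds (by linarith))
  have h2 : ∀ᶠ z in 𝓝 z₀, e (f z) ∈ interior K :=
    hFc.eventually (isOpen_interior.mem_nhds hKt)
  filter_upwards [h1, h2, hopen.mem_nhds hz] with z hz1 hz2 hz3 a
  rw [pulla_eq (hf z) he hz3]
  have h3 := (hCK (e (f z)) (interior_subset hz2) a).1
  rw [e.left_inv hz3] at h3
  have h4 : ∀ i, ‖conj (deriv (fun y => e (f y)) z i) • loc1 0 e a (e (f z)) i‖ ≤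
      (‖deriv (fun y => e (f y)) z₀‖ + 1) * (C * n1 h 0 a (f z)) := by
    intro i
    rw [norm_smul, RCLike.norm_conj]
    have h5 : ‖deriv (fun y => e (f y)) z i‖ ≤ ‖deriv (fun y => e (f y)) z₀‖ + 1 :=
      (norm_le_pi_norm _ i).trans hz1.le
    have h6 : ‖loc1 0 e a (e (f z)) i‖ ≤ C * n1 h 0 a (f z) := (norm_le_pi_norm _ i).trans h3
    exact mul_le_mul h5 h6 (norm_nonneg _) (by positivity)
  rw [Fin.sum_univ_two]
  refine (norm_add_le _ _).trans ((add_le_add (h4 0) (h4 1)).trans (le_of_eq ?_))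
  ring

/-- the pull-back of a `(0,1)`-form to a curve is bounded by its norm -/
theorem pulla_le {h : M → Matrix (Fin 2) (Fin 2) ℂ} (hh : IsHerm h) {f : ℂ → M}
    (hf : MDifferentiable 𝓘(ℂ) 𝓘(ℂ, C2) f) {K : Set ℂ} (hK : IsCompact K) :
    ∃ C : ℝ, 0 ≤ C ∧ ∀ z ∈ K, ∀ a : M → Fin 2 → ℂ, ‖pulla a f z‖ ≤ C * n1 h 0 a (f z) := by
  refine hK.induction_on (p := fun K => ∃ C : ℝ, 0 ≤ C ∧ ∀ z ∈ K, ∀ a : M → Fin 2 → ℂ,
    ‖pulla a f z‖ ≤ C * n1 h 0 a (f z)) ⟨0, le_rfl, fun z hz => absurd hz (notMem_empty z)⟩ ?_ ?_ ?_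
  · rintro s t hst ⟨C, hC, h⟩
    exact ⟨C, hC, fun z hz => h z (hst hz)⟩
  · rintro s t ⟨C, hC, h1⟩ ⟨C', hC', h2⟩
    have hn : ∀ (a : M → Fin 2 → ℂ) (x : M), 0 ≤ n1 h 0 a x := fun a x => n1_nonneg hh 0 a x
    refine ⟨max C C', le_max_of_le_left hC, fun z hz a => ?_⟩
    rcases hz with hz | hz
    · exact (h1 z hz a).trans (mul_le_mul_of_nonneg_right (le_max_left _ _) (hn a _))
    · exact (h2 z hz a).trans (mul_le_mul_of_nonneg_right (le_max_right _ _) (hn a _))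
  · intro z₀ _
    obtain ⟨C, hC, h1⟩ := pulla_le_local hh hf z₀
    exact ⟨_, mem_nhdsWithin_of_mem_nhds h1, C, hC, fun z hz => hz⟩

end

end Vale.Agent.P267.H205.P1
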