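import Vale.Agent.P267.H205.P1i
import Vale.Agent.P267.H498.Deg5

/-!
# P267, block G, package G-P1 (helper205): the curvature of a line bundle on `ℙ¹`
-/

open Filter Topology MeasureTheory Set Metric
open scoped ContDiff Real ComplexConjugate

namespace Vale.Agent.P267.H205.P1

noncomputable section

variable {V : Type*} [NormedAddCommGroup V] [NormedSpace ℂ V]
variable {E : Type*} [NormedAddCommGroup E] [InnerProductSpace ℂ E]

/-- `∂f/∂z` -/
def dd (f : ℂ → V) (z : ℂ) : V :=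
  (1 / 2 : ℂ) • (fderiv ℝ f z 1 - Complex.I • fderiv ℝ f z Complex.I)

theorem dd_congr {f g : ℂ → V} {z : ℂ} (h : f =ᶠ[𝓝 z] g) : dd f z = dd g z := by
  unfold dd
  rw [h.fderiv_eq]

theorem contDiff_dd {f : ℂ → V} (hf : ContDiff ℝ ∞ f) : ContDiff ℝ ∞ (dd f) := by
  unfold dd
  have h1 : ContDiff ℝ ∞ (fderiv ℝ f) := hf.fderiv_right (by simp)
  exact contDiff_const.smul ((h1.clm_apply contDiff_const).sub
    (contDiff_const.smul (h1.clm_apply contDiff_const)))

theorem dd_clm {W : Type*} [NormedAddCommGroup W] [NormedSpace ℂ W] (A : V →L[ℂ] W)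
    {f : ℂ → V} {z : ℂ} (hf : DifferentiableAt ℝ f z) :
    dd (fun x => A (f x)) z = A (dd f z) := by
  unfold dd
  have h : fderiv ℝ (fun x => A (f x)) z = (A.restrictScalars ℝ).comp (fderiv ℝ f z) :=
    ((A.restrictScalars ℝ).hasFDerivAt.comp z hf.hasFDerivAt).fderiv
  rw [h]
  simp only [ContinuousLinearMap.comp_apply, ContinuousLinearMap.coe_restrictScalars', map_smul,
    map_sub]

theorem fderiv_inner' {s t : ℂ → E} {z : ℂ} (hs : DifferentiableAt ℝ s z)
    (ht : DifferentiableAt ℝ t z) (v : ℂ) :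
    fderiv ℝ (fun z => (inner ℂ (s z) (t z) : ℂ)) z v =
      inner ℂ (s z) (fderiv ℝ t z v) + inner ℂ (fderiv ℝ s z v) (t z) :=
  fderiv_inner_apply ℂ hs ht v

theorem db_inner {s t : ℂ → E} {z : ℂ} (hs : DifferentiableAt ℝ s z)
    (ht : DifferentiableAt ℝ t z) :
    db (fun z => (inner ℂ (s z) (t z) : ℂ)) z = inner ℂ (dd s z) (t z) + inner ℂ (s z) (db t z) := by
  unfold db dd
  rw [fderiv_inner' hs ht, fderiv_inner' hs ht]
  simp only [inner_smul_left, inner_smul_right, inner_add_right, inner_sub_left, smul_eq_mul,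
    map_div₀, map_one, map_ofNat, Complex.conj_I]
  ring

theorem dd_inner {s t : ℂ → E} {z : ℂ} (hs : DifferentiableAt ℝ s z)
    (ht : DifferentiableAt ℝ t z) :
    dd (fun z => (inner ℂ (s z) (t z) : ℂ)) z = inner ℂ (db s z) (t z) + inner ℂ (s z) (dd t z) := by
  unfold db dd
  rw [fderiv_inner' hs ht, fderiv_inner' hs ht]
  simp only [inner_smul_left, inner_smul_right, inner_add_left, inner_sub_right, smul_eq_mul,
    map_div₀, map_one, map_ofNat, Complex.conj_I]
  ring

/-- mixed derivatives -/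
theorem db_dd_comm {f : ℂ → V} (hf : ContDiff ℝ ∞ f) (z : ℂ) : db (dd f) z = dd (db f) z := by
  have h1 : ContDiff ℝ ∞ (fderiv ℝ f) := hf.fderiv_right (by simp)
  have hd : ∀ w : ℂ, DifferentiableAt ℝ (fun z => fderiv ℝ f z w) z := fun w =>
    (h1.clm_apply contDiff_const).differentiable (by simp) z
  have hsymm : IsSymmSndFDerivAt ℝ f z := (hf.contDiffAt).isSymmSndFDerivAt (by
    simp only [minSmoothness_of_isRCLikeNormedField]
    exact WithTop.coe_le_coe.2 le_top)
  have h2 : ∀ v w : ℂ, fderiv ℝ (fun z => fderiv ℝ f z w) z v = fderiv ℝ (fderiv ℝ f) z v w := by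
    intro v w
    rw [fderiv_clm_apply (h1.differentiable (by simp) z) (differentiableAt_const _)]
    simp
  have hsy := hsymm.eq 1 Complex.I
  unfold db dd
  have hdI : DifferentiableAt ℝ (fun z => Complex.I • fderiv ℝ f z Complex.I) z :=
    (hd Complex.I).fun_const_smul Complex.I
  have e1 : ∀ v, fderiv ℝ (fun z => (1 / 2 : ℂ) • (fderiv ℝ f z 1 - Complex.I • fderiv ℝ f z Complex.I)) z v =
      (1 / 2 : ℂ) • (fderiv ℝ (fderiv ℝ f) z v 1 - Complex.I • fderiv ℝ (fderiv ℝ f) z v Complex.I) := by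
    intro v
    rw [fderiv_fun_const_smul ((hd 1).fun_sub hdI), FunLike.coe_smul, Pi.smul_apply,
      fderiv_fun_sub (hd 1) hdI, sub_apply,
      fderiv_fun_const_smul (hd Complex.I), FunLike.coe_smul, Pi.smul_apply, h2, h2]
  have e2 : ∀ v, fderiv ℝ (fun z => (1 / 2 : ℂ) • (fderiv ℝ f z 1 + Complex.I • fderiv ℝ f z Complex.I)) z v =
      (1 / 2 : ℂ) • (fderiv ℝ (fderiv ℝ f) z v 1 + Complex.I • fderiv ℝ (fderiv ℝ f) z v Complex.I) := by
    intro v
    rw [fderiv_fun_const_smul ((hd 1).fun_add hdI), FunLike.coe_smul, Pi.smul_apply,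
      fderiv_fun_add (hd 1) hdI, add_apply,
      fderiv_fun_const_smul (hd Complex.I), FunLike.coe_smul, Pi.smul_apply, h2, h2]
  rw [e1, e1, e2, e2, hsy]
  module

end

end Vale.Agent.P267.H205.P1
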