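import Vale.Agent.P267.H205.P2a

/-!
# P267, block G, package G-P1 (helper205): curvature as the Laplacian of the logarithm of the norm
-/

open Filter Topology MeasureTheory Set Metric Laplacian InnerProductSpace
open scoped ContDiff Real ComplexConjugate Matrix

namespace Vale.Agent.P267.H205.P1

open FL

noncomputable section

variable {E : Type*} [NormedAddCommGroup E] [InnerProductSpace ℂ E]

theorem fderiv_ofReal {w : ℂ → ℝ} {z : ℂ} (hw : DifferentiableAt ℝ w z) (v : ℂ) :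
    fderiv ℝ (fun y => (w y : ℂ)) z v = ((fderiv ℝ w z v : ℝ) : ℂ) := by
  have h : fderiv ℝ (fun y => (w y : ℂ)) z = Complex.ofRealCLM.comp (fderiv ℝ w z) :=
    (Complex.ofRealCLM.hasFDerivAt.comp z hw.hasFDerivAt).fderiv
  rw [h]
  rfl

theorem differentiableAt_ofReal {w : ℂ → ℝ} {z : ℂ} (hw : DifferentiableAt ℝ w z) :
    DifferentiableAt ℝ (fun y => (w y : ℂ)) z :=
  Complex.ofRealCLM.differentiableAt.comp z hw

theorem db_ofReal {w : ℂ → ℝ} {z : ℂ} (hw : DifferentiableAt ℝ w z) :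
    db (fun y => (w y : ℂ)) z =
      1 / 2 * ((fderiv ℝ w z 1 : ℝ) + Complex.I * (fderiv ℝ w z Complex.I : ℝ)) := by
  unfold db
  rw [fderiv_ofReal hw, fderiv_ofReal hw, smul_eq_mul, smul_eq_mul]

theorem dd_ofReal {w : ℂ → ℝ} {z : ℂ} (hw : DifferentiableAt ℝ w z) :
    dd (fun y => (w y : ℂ)) z =
      1 / 2 * ((fderiv ℝ w z 1 : ℝ) - Complex.I * (fderiv ℝ w z Complex.I : ℝ)) := by
  unfold dd
  rw [fderiv_ofReal hw, fderiv_ofReal hw, smul_eq_mul, smul_eq_mul]

/-- `∂∂̄` of a real function is a quarter of its Laplacian -/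
theorem db_dd_ofReal {u : ℂ → ℝ} (hu : ContDiff ℝ ∞ u) (z : ℂ) :
    db (dd fun y => (u y : ℂ)) z = ((Δ u z : ℝ) : ℂ) / 4 := by
  have h1 : ContDiff ℝ ∞ (fderiv ℝ u) := hu.fderiv_right (by simp)
  have hd : ∀ w : ℂ, DifferentiableAt ℝ (fun z => fderiv ℝ u z w) z := fun w =>
    (h1.clm_apply contDiff_const).differentiable (by simp) z
  have h2 : ∀ v w : ℂ, fderiv ℝ (fun z => fderiv ℝ u z w) z v = fderiv ℝ (fderiv ℝ u) z v w := by
    intro v w
    rw [fderiv_clm_apply (h1.differentiable (by simp) z) (differentiableAt_const _)]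
    simp
  have hsymm : IsSymmSndFDerivAt ℝ u z := (hu.contDiffAt).isSymmSndFDerivAt (by
    simp only [minSmoothness_of_isRCLikeNormedField]
    exact WithTop.coe_le_coe.2 le_top)
  have hsy := hsymm.eq 1 Complex.I
  have e : (dd fun y => (u y : ℂ)) = fun y => (1 / 2 : ℂ) * (((fderiv ℝ u y 1 : ℝ) : ℂ) -
      Complex.I * ((fderiv ℝ u y Complex.I : ℝ) : ℂ)) := by
    funext y
    exact dd_ofReal (hu.differentiable (by simp) y)
  have hu2 : ContDiffAt ℝ 2 u z := hu.contDiffAt.of_le (WithTop.coe_le_coe.2 le_top)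
  rw [e, H498.laplacian_eq hu2, H498.D2_eq hu2, H498.D2_eq hu2]
  have c1 := differentiableAt_ofReal (hd 1)
  have c2 := differentiableAt_ofReal (hd Complex.I)
  rw [db_mul (differentiableAt_const _) (c1.fun_sub (c2.const_mul _)), db_const,
    db_sub c1 (c2.const_mul _), db_mul (differentiableAt_const _) c2, db_const,
    db_ofReal (hd 1), db_ofReal (hd Complex.I), h2, h2, h2, h2, hsy]
  push_cast
  have hI : Complex.I * Complex.I = -1 := Complex.I_mul_I
  linear_combination (-(1 / 4 : ℂ) * ((fderiv ℝ (fderiv ℝ u) z Complex.I Complex.I : ℝ) : ℂ)) * hI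

section log

variable {s : ℂ → E}

theorem dd_log_norm (hs : ContDiff ℝ ∞ s) (h0 : ∀ z, s z ≠ 0)
    (ho : ∀ z, (inner ℂ (s z) (db s z) : ℂ) = 0) (z : ℂ) :
    dd (fun y => ((Real.log (‖s y‖ ^ 2) : ℝ) : ℂ)) z =
      inner ℂ (s z) (dd s z) / inner ℂ (s z) (s z) := by
  have hd : DifferentiableAt ℝ s z := hs.differentiable (by simp) z
  have hn : DifferentiableAt ℝ (fun y => ‖s y‖ ^ 2) z := hd.norm_sq ℂ
  have hn0 : ‖s z‖ ^ 2 ≠ 0 := pow_ne_zero 2 (norm_ne_zero_iff.2 (h0 z))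
  have e1 : dd (fun y => ((‖s y‖ ^ 2 : ℝ) : ℂ)) z = inner ℂ (s z) (dd s z) := by
    have : (fun y => ((‖s y‖ ^ 2 : ℝ) : ℂ)) = fun y => (inner ℂ (s y) (s y) : ℂ) := by
      funext y
      rw [inner_self_eq_norm_sq_to_K]
      push_cast
      rfl
    rw [this, dd_inner hd hd]
    have h2 : (inner ℂ (db s z) (s z) : ℂ) = 0 := by
      rw [← inner_conj_symm, ho, map_zero]
    rw [h2, zero_add]
  have e2 : fderiv ℝ (fun y => Real.log (‖s y‖ ^ 2)) z =
      (‖s z‖ ^ 2)⁻¹ • fderiv ℝ (fun y => ‖s y‖ ^ 2) z := fderiv.log hn hn0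
  rw [dd_ofReal (hn.log hn0), e2]
  rw [dd_ofReal hn] at e1
  rw [← e1, inner_self_eq_norm_sq_to_K]
  simp only [FunLike.coe_smul, Pi.smul_apply, smul_eq_mul]
  push_cast
  field_simp
  rfl

theorem db_dd_log_norm (hs : ContDiff ℝ ∞ s) (h0 : ∀ z, s z ≠ 0)
    (ho : ∀ z, (inner ℂ (s z) (db s z) : ℂ) = 0) (z : ℂ) :
    db (dd (fun y => ((Real.log (‖s y‖ ^ 2) : ℝ) : ℂ))) z =
      (inner ℂ (dd s z) (dd s z) - inner ℂ (db s z) (db s z) -
        inner ℂ (s z) (dd s z) * inner ℂ (dd s z) (s z) / inner ℂ (s z) (s z)) /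
        inner ℂ (s z) (s z) := by
  have hd : ∀ z, DifferentiableAt ℝ s z := hs.differentiable (by simp)
  have hdd : ∀ z, DifferentiableAt ℝ (dd s) z := (contDiff_dd hs).differentiable (by simp)
  have hdb : ∀ z, DifferentiableAt ℝ (db s) z := (contDiff_db hs).differentiable (by simp)
  have hN : ∀ z, (inner ℂ (s z) (s z) : ℂ) ≠ 0 := fun z => inner_self_ne_zero.2 (h0 z)
  have hl : ContDiff ℝ ∞ fun y => Real.log (‖s y‖ ^ 2) :=
    (hs.norm_sq ℂ).log fun y => pow_ne_zero 2 (norm_ne_zero_iff.2 (h0 y))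
  set g := dd (fun y => ((Real.log (‖s y‖ ^ 2) : ℝ) : ℂ)) with hg
  have hgd : ∀ z, DifferentiableAt ℝ g z :=
    (contDiff_dd (Complex.ofRealCLM.contDiff.comp hl)).differentiable (by simp)
  have hgN : (fun y => g y * (inner ℂ (s y) (s y) : ℂ)) = fun y => (inner ℂ (s y) (dd s y) : ℂ) := by
    funext y
    rw [hg, dd_log_norm hs h0 ho, div_mul_cancel₀ _ (hN y)]
  have hNd : DifferentiableAt ℝ (fun y => (inner ℂ (s y) (s y) : ℂ)) z := (hd z).inner ℂ (hd z)
  have e1 : db (fun y => g y * (inner ℂ (s y) (s y) : ℂ)) z =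
      db (fun y => (inner ℂ (s y) (dd s y) : ℂ)) z := by rw [hgN]
  rw [db_mul (hgd z) hNd, db_inner (hd z) (hdd z), db_inner (hd z) (hd z), ho, add_zero] at e1
  have e2 : (inner ℂ (s z) (db (dd s) z) : ℂ) = - inner ℂ (db s z) (db s z) := by
    have h1 : dd (fun y => (inner ℂ (s y) (db s y) : ℂ)) z = 0 := by
      have : (fun y => (inner ℂ (s y) (db s y) : ℂ)) = fun _ => 0 := by funext y; exact ho y
      rw [this]
      simp [dd]
    rw [dd_inner (hd z) (hdb z), ← db_dd_comm hs] at h1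
    exact eq_neg_of_add_eq_zero_right h1
  rw [e2] at e1
  have e3 : g z = inner ℂ (s z) (dd s z) / inner ℂ (s z) (s z) := dd_log_norm hs h0 ho z
  rw [e3] at e1
  rw [eq_div_iff (hN z)]
  linear_combination e1

end log

end

end Vale.Agent.P267.H205.P1
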