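import Vale.Agent.P267.H205.P2b

/-!
# P267, block G, package G-P1 (helper205): the integral of the curvature over `ℙ¹`
-/

open Filter Topology MeasureTheory Set Metric Laplacian InnerProductSpace
open scoped ContDiff Real ComplexConjugate Matrix

namespace Vale.Agent.P267.H205.P1

open FL

noncomputable section

variable {ι : Type} [Fintype ι] [DecidableEq ι]

/-- `∂Q` -/
def mdd (Q : ℂ → Matrix ι ι ℂ) (z : ℂ) : Matrix ι ι ℂ :=
  Matrix.of fun i j => dd (fun y => Q y i j) z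

/-- `∂̄Q` -/
def mdb (Q : ℂ → Matrix ι ι ℂ) (z : ℂ) : Matrix ι ι ℂ :=
  Matrix.of fun i j => db (fun y => Q y i j) z

/-- `tr (Q [∂Q, ∂̄Q])` -/
def crvC (Q : ℂ → Matrix ι ι ℂ) (z : ℂ) : ℂ :=
  (Q z * (mdd Q z * mdb Q z - mdb Q z * mdd Q z)).trace

theorem db_conj {f : ℂ → ℂ} {z : ℂ} (hf : DifferentiableAt ℝ f z) :
    db (fun y => conj (f y)) z = conj (dd f z) := by
  unfold db dd
  have h : fderiv ℝ (fun y => conj (f y)) z =
      (Complex.conjCLE : ℂ →L[ℝ] ℂ).comp (fderiv ℝ f z) :=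
    (Complex.conjCLE.hasFDerivAt.comp z hf.hasFDerivAt).fderiv
  rw [h]
  simp only [ContinuousLinearMap.comp_apply, ContinuousLinearEquiv.coe_coe,
    Complex.conjCLE_apply, smul_eq_mul, map_mul, map_sub, Complex.conj_I, map_div₀, map_one,
    map_ofNat]
  ring

omit [Fintype ι] [DecidableEq ι] in
theorem mdb_conjTranspose {Q : ℂ → Matrix ι ι ℂ} (hh : ∀ z, (Q z)ᴴ = Q z)
    (hQ : ∀ i j, ContDiff ℝ ∞ fun z => Q z i j) (z : ℂ) : (mdb Q z)ᴴ = mdd Q z := by
  ext i j
  simp only [mdb, mdd, Matrix.conjTranspose_apply, Matrix.of_apply, RCLike.star_def]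
  have e : (fun y => Q y j i) = fun y => conj (Q y i j) := by
    funext y
    have := congrFun (congrFun (hh y) j) i
    rw [Matrix.conjTranspose_apply] at this
    exact this.symm
  rw [e, db_conj ((hQ i j).differentiable (by simp) z), Complex.conj_conj]

omit [DecidableEq ι] in
theorem inner_act (M : Matrix ι ι ℂ) (v w : EuclideanSpace ℂ ι) :
    (inner ℂ v (LB.act M w) : ℂ) = inner ℂ (LB.act Mᴴ v) w := by
  simp only [PiLp.inner_apply, LB.act_apply, RCLike.inner_apply, Matrix.conjTranspose_apply,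
    Finset.sum_mul, Finset.mul_sum, map_sum, map_mul, RCLike.star_def, Complex.conj_conj]
  rw [Finset.sum_comm]
  exact Finset.sum_congr rfl fun i _ => Finset.sum_congr rfl fun j _ => by ring

/-- derivative of `s ↦ Q s` -/
theorem act_mdd {Q : ℂ → Matrix ι ι ℂ} (hQ : ∀ i j, ContDiff ℝ ∞ fun z => Q z i j)
    {s : ℂ → EuclideanSpace ℂ ι} (hs : ContDiff ℝ ∞ s) (hQs : ∀ z, LB.act (Q z) (s z) = s z)
    (z : ℂ) : LB.act (mdd Q z) (s z) = dd s z - LB.act (Q z) (dd s z) := by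
  ext i
  rw [PiLp.sub_apply, LB.act_apply, LB.act_apply]
  have hd : ∀ j, DifferentiableAt ℝ (fun y => s y j) z := fun j =>
    (EuclideanSpace.proj (𝕜 := ℂ) j).differentiableAt.restrictScalars ℝ |>.comp z
      (hs.differentiable (by simp) z)
  have hc : ∀ j, dd (fun y => s y j) z = dd s z j := fun j =>
    dd_clm (EuclideanSpace.proj (𝕜 := ℂ) j) (hs.differentiable (by simp) z)
  have e : (fun y => s y i) = fun y => ∑ j, Q y i j * s y j := by
    funext y
    have := congrArg (fun v : EuclideanSpace ℂ ι => v i) (hQs y)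
    simp only [LB.act_apply] at this
    exact this.symm
  have hm : ∀ j, DifferentiableAt ℝ (fun y => Q y i j * s y j) z := fun j =>
    ((hQ i j).differentiable (by simp) z).mul (hd j)
  have e2 : dd (fun y => ∑ j, Q y i j * s y j) z =
      ∑ j, (dd (fun y => Q y i j) z * s z j + Q z i j * dd s z j) := by
    unfold dd
    rw [fderiv_fun_sum fun j _ => hm j]
    simp only [FunLike.coe_sum, Finset.sum_apply, Finset.smul_sum, ← Finset.sum_sub_distrib]
    refine Finset.sum_congr rfl fun j _ => ?_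
    rw [fderiv_fun_mul ((hQ i j).differentiable (by simp) z) (hd j)]
    have := hc j
    unfold dd at this
    rw [← this]
    simp only [FunLike.coe_add, FunLike.coe_smul, Pi.add_apply, Pi.smul_apply, smul_eq_mul]
    ring
  rw [← e, hc i, Finset.sum_add_distrib] at e2
  rw [e2]
  simp only [mdd, Matrix.of_apply]
  ring

theorem act_mdb {Q : ℂ → Matrix ι ι ℂ} (hQ : ∀ i j, ContDiff ℝ ∞ fun z => Q z i j)
    {s : ℂ → EuclideanSpace ℂ ι} (hs : ContDiff ℝ ∞ s) (hQs : ∀ z, LB.act (Q z) (s z) = s z)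
    (z : ℂ) : LB.act (mdb Q z) (s z) = db s z - LB.act (Q z) (db s z) := by
  ext i
  rw [PiLp.sub_apply, LB.act_apply, LB.act_apply]
  have hd : ∀ j, DifferentiableAt ℝ (fun y => s y j) z := fun j =>
    (EuclideanSpace.proj (𝕜 := ℂ) j).differentiableAt.restrictScalars ℝ |>.comp z
      (hs.differentiable (by simp) z)
  have hc : ∀ j, db (fun y => s y j) z = db s z j := fun j =>
    db_clm (EuclideanSpace.proj (𝕜 := ℂ) j) (hs.differentiable (by simp) z)
  have e : (fun y => s y i) = fun y => ∑ j, Q y i j * s y j := by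
    funext y
    have := congrArg (fun v : EuclideanSpace ℂ ι => v i) (hQs y)
    simp only [LB.act_apply] at this
    exact this.symm
  have hm : ∀ j, DifferentiableAt ℝ (fun y => Q y i j * s y j) z := fun j =>
    ((hQ i j).differentiable (by simp) z).mul (hd j)
  have e2 : db (fun y => ∑ j, Q y i j * s y j) z =
      ∑ j, (db (fun y => Q y i j) z * s z j + Q z i j * db s z j) := by
    unfold db
    rw [fderiv_fun_sum fun j _ => hm j]
    simp only [FunLike.coe_sum, Finset.sum_apply, Finset.smul_sum, ← Finset.sum_add_distrib]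
    refine Finset.sum_congr rfl fun j _ => ?_
    rw [fderiv_fun_mul ((hQ i j).differentiable (by simp) z) (hd j)]
    have := hc j
    unfold db at this
    rw [← this]
    simp only [FunLike.coe_add, FunLike.coe_smul, Pi.add_apply, Pi.smul_apply, smul_eq_mul]
    ring
  rw [← e, hc i, Finset.sum_add_distrib] at e2
  rw [e2]
  simp only [mdb, Matrix.of_apply]
  ring

omit [DecidableEq ι] in
/-- trace against a rank one projector -/
theorem trace_rank_one {P M : Matrix ι ι ℂ} {v : EuclideanSpace ℂ ι} {N : ℂ}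
    (hP : ∀ i j, P i j = v i * conj (v j) / N) :
    (P * M).trace = inner ℂ v (LB.act M v) / N := by
  simp only [Matrix.trace, Matrix.diag_apply, Matrix.mul_apply, hP, PiLp.inner_apply,
    LB.act_apply, RCLike.inner_apply, Finset.sum_div, Finset.sum_mul]
  rw [Finset.sum_comm]
  exact Finset.sum_congr rfl fun i _ => Finset.sum_congr rfl fun j _ => by ring

theorem rank_one_entries (Λ : LC (EuclideanSpace ℂ ι)) {z : ℂ} {Q : Matrix ι ι ℂ}
    (hT : Λ.T z = LB.actL Q) (hh : Qᴴ = Q) {v : EuclideanSpace ℂ ι} (hv : Λ.T z v = v)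
    (h0 : v ≠ 0) (i j : ι) : Q i j = v i * conj (v j) / inner ℂ v v := by
  have hQv : LB.act Q v = v := by rw [← LB.actL_apply, ← hT, hv]
  have h1 := Λ.eq_inner_smul (v := Λ.T z (EuclideanSpace.single j (1 : ℂ))) (Λ.idem z _) hv h0
  rw [hT, LB.actL_apply, inner_act, hh, hQv, EuclideanSpace.inner_single_right] at h1
  have h2 := congrArg (fun w : EuclideanSpace ℂ ι => w i) h1
  simp only [LB.act_apply, PiLp.smul_apply, smul_eq_mul] at h2
  have h3 : ∑ k, Q i k * (EuclideanSpace.single j (1 : ℂ)) k = Q i j := by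
    rw [Finset.sum_eq_single j]
    · simp
    · intro b _ hb
      simp [hb]
    · simp
  rw [h3] at h2
  rw [h2]
  ring

theorem crvC_eq (Λ : LC (EuclideanSpace ℂ ι)) {Q : ℂ → Matrix ι ι ℂ}
    (hT : ∀ z, Λ.T z = LB.actL (Q z)) (hh : ∀ z, (Q z)ᴴ = Q z)
    (hQ : ∀ i j, ContDiff ℝ ∞ fun z => Q z i j) {s : ℂ → EuclideanSpace ℂ ι} (hs : Λ.IsSec s)
    (h0 : ∀ z, s z ≠ 0) (hD : ∀ z, Λ.T z (db s z) = 0) (z : ℂ) :
    crvC Q z = -(((Δ (fun y => Real.log (‖s y‖ ^ 2)) z : ℝ) : ℂ) / 4) := by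
  have hQs : ∀ z, LB.act (Q z) (s z) = s z := fun z => by
    rw [← LB.actL_apply, ← hT]; exact hs.2 z
  have hin : ∀ (z : ℂ) (w : EuclideanSpace ℂ ι),
      (inner ℂ (s z) w : ℂ) = inner ℂ (s z) (LB.act (Q z) w) := fun z w => by
    rw [inner_act, hh, hQs]
  have ho : ∀ z, (inner ℂ (s z) (db s z) : ℂ) = 0 := fun z => by
    rw [hin, ← LB.actL_apply, ← hT, hD, inner_zero_right]
  have hl : ContDiff ℝ ∞ fun y => Real.log (‖s y‖ ^ 2) :=
    (hs.1.norm_sq ℂ).log fun y => pow_ne_zero 2 (norm_ne_zero_iff.2 (h0 y))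
  rw [← db_dd_ofReal hl, db_dd_log_norm hs.1 h0 ho]
  have hN : (inner ℂ (s z) (s z) : ℂ) ≠ 0 := inner_self_ne_zero.2 (h0 z)
  rw [crvC, trace_rank_one (rank_one_entries Λ (hT z) (hh z) (hs.2 z) (h0 z))]
  have e1 : LB.act (mdb Q z) (s z) = db s z := by
    rw [act_mdb hQ hs.1 hQs, ← LB.actL_apply, ← hT, hD, sub_zero]
  have e2 : LB.act (mdd Q z) (s z) =
      dd s z - (inner ℂ (s z) (dd s z) / inner ℂ (s z) (s z) : ℂ) • s z := by
    rw [act_mdd hQ hs.1 hQs]
    have h1 := Λ.eq_inner_smul (v := Λ.T z (dd s z)) (Λ.idem z _) (hs.2 z) (h0 z)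
    rw [hT, LB.actL_apply, ← hin] at h1
    rw [h1]
  have hA : (mdd Q z)ᴴ = mdb Q z := by
    rw [← mdb_conjTranspose hh hQ, Matrix.conjTranspose_conjTranspose]
  have hB : (mdb Q z)ᴴ = mdd Q z := mdb_conjTranspose hh hQ z
  have e3 : LB.act (mdd Q z * mdb Q z - mdb Q z * mdd Q z) (s z) =
      LB.act (mdd Q z) (LB.act (mdb Q z) (s z)) - LB.act (mdb Q z) (LB.act (mdd Q z) (s z)) := by
    rw [← LB.act_mul, ← LB.act_mul]
    ext i
    simp only [LB.act_apply, PiLp.sub_apply, Matrix.sub_apply, sub_mul, Finset.sum_sub_distrib]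
  rw [e3, inner_sub_right, inner_act (mdd Q z) (s z) (LB.act (mdb Q z) (s z)),
    inner_act (mdb Q z) (s z) (LB.act (mdd Q z) (s z)), hA, hB, e1, e2]
  have hc : (conj (inner ℂ (s z) (s z) : ℂ)) = inner ℂ (s z) (s z) := inner_conj_symm _ _
  have hc2 : (conj (inner ℂ (s z) (dd s z) : ℂ)) = inner ℂ (dd s z) (s z) := inner_conj_symm _ _
  simp only [inner_sub_left, inner_sub_right, inner_smul_left, inner_smul_right, map_div₀, hc, hc2]
  field_simp
  ring

/-- **Gauss-Bonnet.** The curvature of a line bundle on the projective line integrates to `π`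
times its degree. -/
theorem integral_crvC (Λ : LP1 (EuclideanSpace ℂ ι)) {Q : ℂ → Matrix ι ι ℂ}
    (hT : ∀ z, Λ.L₀.T z = LB.actL (Q z)) (hh : ∀ z, (Q z)ᴴ = Q z)
    (hQ : ∀ i j, ContDiff ℝ ∞ fun z => Q z i j) :
    Integrable (crvC Q) ∧ ∫ z, crvC Q z = π * Λ.deg := by
  obtain ⟨s₀, s₁, h⟩ := Λ.exists_frames_deg
  obtain ⟨u₀, u₁, hu₀, hu₁, hd₀, hd₁, hu, -⟩ := solve_zero Λ.L₀.smooth_a Λ.L₁.smooth_a Λ.glue_a
  set t₀ : ℂ → EuclideanSpace ℂ ι := fun z => Complex.exp (u₀ z) • s₀ z with ht₀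
  set t₁ : ℂ → EuclideanSpace ℂ ι := fun z => Complex.exp (u₁ z) • s₁ z with ht₁
  have c₀ : ContDiff ℝ ∞ t₀ := (hu₀.cexp).smul h.sec₀.1
  have c₁ : ContDiff ℝ ∞ t₁ := (hu₁.cexp).smul h.sec₁.1
  have n₀ : ∀ z, t₀ z ≠ 0 := fun z => smul_ne_zero (Complex.exp_ne_zero _) (h.ne₀ z)
  have n₁ : ∀ z, t₁ z ≠ 0 := fun z => smul_ne_zero (Complex.exp_ne_zero _) (h.ne₁ z)
  have hsec : Λ.L₀.IsSec t₀ := ⟨c₀, fun z => by
    rw [ht₀]
    simp only
    rw [map_smul, h.sec₀.2]⟩
  have hD : ∀ z, Λ.L₀.T z (db t₀ z) = 0 := by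
    intro z
    have e1 : DifferentiableAt ℝ u₀ z := hu₀.differentiable (by simp) z
    have e2 : DifferentiableAt ℝ s₀ z := h.sec₀.1.differentiable (by simp) z
    have e3 := h.hol₀ z
    unfold LC.D at e3
    have e4 : Λ.L₀.T z (db s₀ z) = -(Λ.L₀.a z • s₀ z) := eq_neg_of_add_eq_zero_left e3
    rw [ht₀, db_smul e1.cexp e2, db_cexp e1, hd₀, map_add, map_smul, map_smul, h.sec₀.2, e4]
    module
  have hcrv := crvC_eq Λ.L₀ hT hh hQ hsec n₀ hD
  have hl : ContDiff ℝ ∞ fun y => Real.log (‖t₀ y‖ ^ 2) :=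
    (c₀.norm_sq ℂ).log fun y => pow_ne_zero 2 (norm_ne_zero_iff.2 (n₀ y))
  have hl₁ : ContDiff ℝ ∞ fun y => Real.log (‖t₁ y‖ ^ 2) :=
    (c₁.norm_sq ℂ).log fun y => pow_ne_zero 2 (norm_ne_zero_iff.2 (n₁ y))
  have two_le : (2 : WithTop ℕ∞) ≤ ∞ := WithTop.coe_le_coe.2 le_top
  have hcont : Continuous (Δ fun y => Real.log (‖t₀ y‖ ^ 2)) := by
    have h1 : Continuous fun z => (4 * db (dd fun y => ((Real.log (‖t₀ y‖ ^ 2) : ℝ) : ℂ)) z).re :=
      Complex.continuous_re.comp (continuous_const.mul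
        (contDiff_db (contDiff_dd (Complex.ofRealCLM.contDiff.comp hl))).continuous)
    refine h1.congr fun z => ?_
    rw [db_dd_ofReal hl]
    have : (4 * (((Δ (fun y => Real.log (‖t₀ y‖ ^ 2)) z : ℝ) : ℂ) / 4) : ℂ) =
        ((Δ (fun y => Real.log (‖t₀ y‖ ^ 2)) z : ℝ) : ℂ) := by ring
    rw [this, Complex.ofReal_re]
  obtain ⟨hI, hint⟩ := H498.degree_P1 (Z := ∅) (m := 0)
    (u := fun y => Real.log (‖t₀ y‖ ^ 2)) (F := Δ fun y => Real.log (‖t₀ y‖ ^ 2))
    (minf := 2 * Λ.deg) (fun z _ => (hl.contDiffAt).of_le two_le) (by simp)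
    ⟨fun y => Real.log (‖t₁ y‖ ^ 2), (hl₁.contDiffAt).of_le two_le, by
      rw [eventually_nhdsWithin_iff]
      refine Eventually.of_forall fun w hw => ?_
      have hw0 : w ≠ 0 := hw
      have e : t₀ w⁻¹ = w ^ Λ.deg • t₁ w := by
        rw [ht₀, ht₁]
        simp only
        rw [h.glue _ (inv_ne_zero hw0), hu _ (inv_ne_zero hw0), inv_inv, smul_comm, inv_zpow,
          zpow_neg, inv_inv]
      rw [e, norm_smul, mul_pow, Real.log_mul (pow_ne_zero _ (norm_ne_zero_iff.2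
        (zpow_ne_zero _ hw0))) (pow_ne_zero _ (norm_ne_zero_iff.2 (n₁ w))), norm_zpow,
        Real.log_pow, Real.log_zpow]
      push_cast
      ring⟩
    hcont (fun z _ => rfl)
  have hcrv' : crvC Q = fun z =>
      (-(1 / 4) : ℂ) * ((Δ (fun y => Real.log (‖t₀ y‖ ^ 2)) z : ℝ) : ℂ) := by
    funext z
    rw [hcrv]
    ring
  rw [hcrv']
  refine ⟨(hI.ofReal).const_mul _, ?_⟩
  rw [integral_const_mul, integral_complex_ofReal, hint]
  push_cast
  simp
  ring

end

end Vale.Agent.P267.H205.P1
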